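import Vale.Agent.P200b.Formula
import Mathlib

/-!
Reversing the order of the variables does not change the ranks of Koszul boundaries.
-/

noncomputable section

namespace Vale.Agent.P200e

open MvPolynomial Vale.Agent.P200b

variable {K : Type*} [Field K] {n : ℕ}

/-- Reversing the variables of chains. -/
def revC (K : Type*) [Field K] (n : ℕ) :
    (Finset (Fin n) → MvPolynomial (Fin n) K) →ₗ[K] (Finset (Fin n) → MvPolynomial (Fin n) K) where
  toFun φ T := rename Fin.rev (φ (T.map Fin.revPerm.toEmbedding))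
  map_add' φ ψ := by funext T; simp
  map_smul' r φ := by funext T; simp

theorem rename_rev_rev (q : MvPolynomial (Fin n) K) : rename Fin.rev (rename Fin.rev q) = q := by
  have e : Fin.rev ∘ Fin.rev = (id : Fin n → Fin n) := funext Fin.rev_rev
  rw [rename_rename, e, rename_id_apply]

theorem map_rev_rev (T : Finset (Fin n)) :
    (T.map Fin.revPerm.toEmbedding).map Fin.revPerm.toEmbedding = T := by
  ext i; simp

theorem revC_revC (φ : Finset (Fin n) → MvPolynomial (Fin n) K) : revC K n (revC K n φ) = φ := by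
  funext T
  simp only [revC, LinearMap.coe_mk, AddHom.coe_mk, map_rev_rev, rename_rev_rev]

theorem revC_koszul (φ : Finset (Fin n) → MvPolynomial (Fin n) K) (T : Finset (Fin n)) :
    revC K n (koszul φ) T = (-1 : MvPolynomial (Fin n) K) ^ T.card * koszul (revC K n φ) T := by
  classical
  show rename Fin.rev (∑ k ∈ (T.map Fin.revPerm.toEmbedding)ᶜ, _) =
    _ * ∑ i ∈ Tᶜ, _
  rw [map_sum, Finset.mul_sum]
  refine Finset.sum_nbij' Fin.rev Fin.rev (fun k hk => ?_) (fun i hi => ?_)
    (fun k _ => Fin.rev_rev k) (fun i _ => Fin.rev_rev i) (fun k hk => ?_)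
  · simpa [Finset.mem_compl] using hk
  · simpa [Finset.mem_compl] using hi
  have hkT : k.rev ∉ T := by simpa [Finset.mem_compl] using hk
  have e1 : (insert k.rev T).map Fin.revPerm.toEmbedding =
      insert k (T.map Fin.revPerm.toEmbedding) := by
    rw [Finset.map_insert]; simp
  have e2 : ((T.map Fin.revPerm.toEmbedding).filter (· < k)).card =
      (T.filter (k.rev < ·)).card := by
    rw [Finset.filter_map, Finset.card_map]
    congr 1
    refine Finset.filter_congr fun i _ => ?_
    simp [Fin.rev_lt_iff]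
  have e3 : (T.filter (k.rev < ·)).card + (T.filter (· < k.rev)).card = T.card := by
    rw [← Finset.card_union_of_disjoint]
    · congr 1
      ext i
      simp only [Finset.mem_union, Finset.mem_filter]
      refine ⟨fun h => h.elim And.left And.left, fun h => ?_⟩
      rcases lt_trichotomy i k.rev with h' | h' | h'
      · exact Or.inr ⟨h, h'⟩
      · exact absurd (h' ▸ h) hkT
      · exact Or.inl ⟨h, h'⟩
    · refine Finset.disjoint_left.2 fun i h1 h2 => ?_
      exact lt_asymm (Finset.mem_filter.1 h1).2 (Finset.mem_filter.1 h2).2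
  have hsq : ((-1 : MvPolynomial (Fin n) K) ^ (T.filter (· < k.rev)).card) *
      (-1) ^ (T.filter (· < k.rev)).card = 1 := by
    rw [← pow_add, ← two_mul, pow_mul]; simp
  simp only [map_mul, map_pow, map_neg, map_one, rename_X, revC, LinearMap.coe_mk, AddHom.coe_mk,
    e1, e2]
  rw [← e3, pow_add]
  linear_combination (-((-1 : MvPolynomial (Fin n) K) ^ (T.filter (k.rev < ·)).card *
    X k.rev * rename Fin.rev (φ (insert k (T.map Fin.revPerm.toEmbedding))))) * hsq

theorem revC_chains (I : Ideal (MvPolynomial (Fin n) K)) (p j : ℕ)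
    {φ : Finset (Fin n) → MvPolynomial (Fin n) K} (hφ : φ ∈ chains I p j) :
    revC K n φ ∈ chains (I.comap (rename Fin.rev)) p j := by
  refine mem_chains.2 fun T => ⟨fun hT => ?_, fun hT => ?_⟩
  · obtain ⟨h1, h2⟩ := (mem_chains.1 hφ (T.map Fin.revPerm.toEmbedding)).1
      (by rw [Finset.card_map]; exact hT)
    refine ⟨?_, h2.rename_isHomogeneous⟩
    rw [Ideal.mem_comap]
    show rename Fin.rev (rename Fin.rev _) ∈ I
    rw [rename_rev_rev]
    exact h1
  · show rename Fin.rev _ = 0
    rw [(mem_chains.1 hφ _).2 (by rw [Finset.card_map]; exact hT), map_zero]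

theorem revC_boundaries (I : Ideal (MvPolynomial (Fin n) K)) (p j : ℕ) :
    (boundaries I p j).map (revC K n) ≤ boundaries (I.comap (rename Fin.rev)) p j := by
  rw [boundaries, Submodule.map_sup]
  refine sup_le_sup ?_ ?_
  · rintro _ ⟨φ, hφ, rfl⟩
    exact revC_chains I p j hφ
  · rintro _ ⟨_, ⟨φ, hφ, rfl⟩, rfl⟩
    have h := revC_chains ⊤ (p + 1) j hφ
    rw [Ideal.comap_top] at h
    refine ⟨(-1 : K) ^ p • revC K n φ, Submodule.smul_mem _ _ h, ?_⟩
    rw [map_smul]
    funext T
    rw [revC_koszul]
    by_cases hT : T.card = p ∧ p ≤ j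
    · rw [hT.1, Pi.smul_apply, smul_eq_C_mul, map_pow, map_neg, map_one]
    · rw [Pi.smul_apply, (mem_chains.1 (koszul_mem_chains h) T).2 hT, smul_zero, mul_zero]

theorem finrank_boundaries_comap_rev (I : Ideal (MvPolynomial (Fin n) K)) (p j : ℕ) :
    Module.finrank K (boundaries (I.comap (rename Fin.rev)) p j) =
      Module.finrank K (boundaries I p j) := by
  have hinj : Function.Injective (revC K n) := Function.LeftInverse.injective revC_revC
  have key : ∀ J : Ideal (MvPolynomial (Fin n) K), Module.finrank K (boundaries J p j) ≤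
      Module.finrank K (boundaries (J.comap (rename Fin.rev)) p j) := fun J => by
    have : Module.Finite K (boundaries (J.comap (rename Fin.rev)) p j) :=
      Submodule.finiteDimensional_of_le (boundaries_le _ p j)
    exact ((Submodule.equivMapOfInjective (revC K n) hinj _).finrank_eq).trans_le
      (Submodule.finrank_mono (revC_boundaries J p j))
  refine le_antisymm ?_ (key I)
  refine (key _).trans (le_of_eq ?_)
  rw [show (I.comap (rename Fin.rev)).comap (rename Fin.rev) = I from Ideal.ext fun q => by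
    show rename Fin.rev (rename Fin.rev q) ∈ I ↔ _
    rw [rename_rev_rev]]

theorem comap_rev_monomial (Ω : Set (Fin n →₀ ℕ)) (hΩ : ∀ a ∈ Ω, ∀ b, a ≤ b → b ∈ Ω) :
    (Ideal.span ((fun a => monomial a (1 : K)) '' Ω)).comap (rename Fin.rev) =
      Ideal.span ((fun a => monomial a (1 : K)) ''
        {a | Finsupp.equivMapDomain Fin.revPerm a ∈ Ω}) := by
  classical
  ext q
  rw [Ideal.mem_comap, mem_ideal_span_monomial_image, mem_ideal_span_monomial_image]
  show (∀ a ∈ (rename Fin.rev q).support, _) ↔ _
  rw [support_rename_of_injective Fin.rev_injective]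
  rw [Finset.forall_mem_image]
  simp only [Finsupp.equivMapDomain_eq_mapDomain, Set.mem_ofPred_eq, Fin.revPerm]
  
  refine forall_congr' fun a => imp_congr_right fun _ => ⟨?_, ?_⟩
  · rintro ⟨s, hs, hsa⟩
    exact ⟨a, hΩ s hs _ hsa, le_rfl⟩
  · rintro ⟨s, hs, hsa⟩
    exact ⟨_, hs, Finsupp.mapDomain_mono hsa⟩

end Vale.Agent.P200e
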