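import Vale.Agent.P200d.Lex
import Vale.Agent.P200b.Bound
import Vale.Agent.P200b.Result
import Vale.Agent.P200e.Rev
import Vale.Agent.P200e.Bridge

/-!
The lex-plus-powers bound on graded Betti numbers for regular sequences of forms of degree `p` in
characteristic `p`.
-/

noncomputable section

namespace Vale.Agent.P200e

open MvPolynomial Vale.Agent.P200 Vale.Agent.P200b Vale.Agent.P200d
open scoped Classical

universe u

/-- An upward closed exponent set containing the powers, with the Hilbert function of the ideal and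
with boundary ranks at most those of the ideal. -/
theorem exists_model {K : Type u} [Field K] {p : ℕ} [hp : Fact p.Prime] [CharP K p] {n c : ℕ}
    (hc : c ≤ n) (f : Fin c → MvPolynomial (Fin n) K) (hf : ∀ i, (f i).IsHomogeneous p)
    (hreg : IsRegSeq f) (I : Ideal (MvPolynomial (Fin n) K)) (hfI : ∀ i, f i ∈ I) :
    ∃ U : Set (Fin n →₀ ℕ), (∀ a ∈ U, ∀ b, a ≤ b → b ∈ U) ∧
      (∀ i : Fin c, Finsupp.single (Fin.castLE hc i) p ∈ U) ∧
      (∀ d, {a ∈ U | a.degree = d}.ncard = Module.finrank K (piece I d)) ∧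
      ∀ q j, Module.finrank K (boundaries (Ideal.span ((fun a => monomial a (1 : K)) '' U)) q j) ≤
        Module.finrank K (boundaries I q j) := by
  have hs : StrongReg f := strongReg_of_isRegSeq f (fun _ => p) (fun _ => hp.1.pos) hf hreg
  obtain ⟨D, instD, instA, ⟨P⟩⟩ := exists_pframe hc f hf hs
  set Ω : Set (Fin n →₀ ℕ) := P.rev.lead I
  have hΩ : ∀ a ∈ Ω, ∀ b, a ≤ b → b ∈ Ω := fun a ha b hab => P.rev.lead_upper I ha hab
  have hinv : ∀ a : Fin n →₀ ℕ,
      Finsupp.equivMapDomain Fin.revPerm (Finsupp.equivMapDomain Fin.revPerm a) = a := fun a => by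
    ext v; simp [Finsupp.equivMapDomain_apply]
  refine ⟨{a | Finsupp.equivMapDomain Fin.revPerm a ∈ Ω}, fun a ha b hab =>
    P.rev.lead_upper I ha fun v => by simp only [Finsupp.equivMapDomain_apply]; exact hab _,
    fun i => ?_, fun d => ?_, fun q j => ?_⟩
  · show Finsupp.equivMapDomain Fin.revPerm (Finsupp.single (Fin.castLE hc i) p) ∈ Ω
    rw [Finsupp.equivMapDomain_single]
    refine pow_mem_lead P hp.1.pos I hf hfI _ ?_
    have := i.2
    simp only [Fin.revPerm_apply, Fin.rev_rev, Fin.val_castLE]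
    omega
  · refine Eq.trans ?_ (P.rev.ncard_lead I d)
    refine Set.ncard_congr (fun a _ => Finsupp.equivMapDomain Fin.revPerm a) ?_ ?_ ?_
    · rintro a ⟨ha, hd⟩
      refine ⟨ha, ?_⟩
      rw [Finsupp.equivMapDomain_eq_mapDomain, Finsupp.degree_mapDomain]
      exact hd
    · intro a b _ _ h
      exact (Finsupp.domCongr Fin.revPerm).injective h
    · rintro b ⟨hb, hd⟩
      refine ⟨Finsupp.equivMapDomain Fin.revPerm b, ⟨?_, ?_⟩, hinv b⟩
      · show Finsupp.equivMapDomain Fin.revPerm (Finsupp.equivMapDomain Fin.revPerm b) ∈ Ω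
        rw [hinv]
        exact hb
      · rw [Finsupp.equivMapDomain_eq_mapDomain, Finsupp.degree_mapDomain]
        exact hd
  · rw [← comap_rev_monomial Ω hΩ, finrank_boundaries_comap_rev]
    exact P.rev.boundaries_lead_le I q j

theorem inP_iff {n E c : ℕ} {a : Fin n →₀ ℕ} : Lex.inP E c a ↔ pwP E c a := Iff.rfl

theorem monomial_ideal_eq {K : Type*} [Field K] {n : ℕ} (J : Set (Fin n →₀ ℕ))
    (hJ : ∀ a ∈ J, ∀ b, a ≤ b → b ∈ J) :
    (Ideal.span ((fun a => monomial a (1 : K)) '' J)).restrictScalars K = restrictSupport K J := by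
  ext q
  rw [Submodule.restrictScalars_mem, mem_ideal_span_monomial_image, mem_restrictSupport_iff]
  exact ⟨fun h a ha => let ⟨s, hs, hsa⟩ := h a ha; hJ s hs a hsa,
    fun h a ha => ⟨a, h ha, le_rfl⟩⟩

/-- The lex-plus-powers space is an ideal with the same Hilbert function, and its graded Betti
numbers are at least those of the given ideal. -/
theorem result {K : Type u} [Field K] {p : ℕ} [Fact p.Prime] [CharP K p] {n c : ℕ} (hc : c ≤ n)
    (f : Fin c → MvPolynomial (Fin n) K) (hf : ∀ i, (f i).IsHomogeneous p)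
    (hreg : ∀ i g, g * f i ∈ Ideal.span (f '' Set.Iio i) → g ∈ Ideal.span (f '' Set.Iio i))
    (I : Ideal (MvPolynomial (Fin n) K)) (hI : ∀ q ∈ I, ∀ d, homogeneousComponent d q ∈ I)
    (hfI : ∀ i, f i ∈ I) :
    (Ideal.span ((fun a => monomial a (1 : K)) '' {a | Lex.inJ p c I a})).restrictScalars K =
        Lex.lexPP p c I ∧
      (∀ d, Module.finrank K
          ↥((Ideal.span ((fun a => monomial a (1 : K)) '' {a | Lex.inJ p c I a})).restrictScalars K ⊓
            homogeneousSubmodule (Fin n) K d) =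
        Module.finrank K ↥(I.restrictScalars K ⊓ homogeneousSubmodule (Fin n) K d)) ∧
      ∀ q j : ℕ, betti I q j ≤
        betti (Ideal.span ((fun a => monomial a (1 : K)) '' {a | Lex.inJ p c I a})) q j := by
  obtain ⟨hmul, hHF⟩ := Lex.result hc f hf hreg I hI hfI
  set JI := Ideal.span ((fun a => monomial a (1 : K)) '' {a | Lex.inJ p c I a}) with hJI
  have hlex : Lex.lexPP p c I = restrictSupport K {a | Lex.inJ p c I a} :=
    (restrictSupport_eq_span K _).symm
  have hJup : ∀ a ∈ {a | Lex.inJ p c I a}, ∀ b, a ≤ b → b ∈ {a | Lex.inJ p c I a} := by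
    intro a ha b hab
    have h := hmul (monomial (b - a) 1) (monomial a 1) (Submodule.subset_span ⟨a, ha, rfl⟩)
    rw [monomial_mul, mul_one, tsub_add_cancel_of_le hab, hlex, mem_restrictSupport_iff,
      support_monomial, if_neg one_ne_zero] at h
    exact h (Finset.mem_singleton_self b)
  have heq : JI.restrictScalars K = Lex.lexPP p c I := by
    rw [hJI, monomial_ideal_eq _ hJup, hlex]
  have hHFJ : ∀ d, Module.finrank K ↥(JI.restrictScalars K ⊓ homogeneousSubmodule (Fin n) K d) =
      Module.finrank K ↥(I.restrictScalars K ⊓ homogeneousSubmodule (Fin n) K d) := fun d => by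
    rw [heq]; exact hHF d
  refine ⟨heq, hHFJ, fun q j => ?_⟩
  obtain ⟨U, hUup, hUpw, hUcount, hUb⟩ := exists_model hc f hf hreg I hfI
  refine betti_le_of_boundaries _ _ j (fun d => (hHFJ d).symm) (fun q => ?_) q
  refine le_trans ?_ (hUb q j)
  have hPU : ∀ a, pwP p c a → a ∈ U := by
    rintro a ⟨i, hi, hai⟩
    refine hUup _ (hUpw ⟨i, hi⟩) _ ?_
    rw [show Fin.castLE hc ⟨i, hi⟩ = i from Fin.ext rfl]
    exact Finsupp.single_le_iff.2 hai
  have hPJ : ∀ a, pwP p c a → a ∈ {a | Lex.inJ p c I a} := fun a ha => Or.inl ha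
  by_cases hqj : q ≤ j
  swap
  · have h0 : boundaries JI q j = ⊥ := by
      refine eq_bot_iff.2 fun φ hφ => ?_
      rw [Submodule.mem_bot]
      funext T
      exact (mem_chains.1 (boundaries_le _ q j hφ) T).2 (fun h' => hqj h'.2)
    rw [h0, finrank_bot]
    exact Nat.zero_le _
  rw [hJI, finrank_boundaries _ hJup hPJ hqj, finrank_boundaries _ hUup hPU hqj]
  refine Nat.add_le_add_right ?_ _
  set e := j - q
  have hcard : ∀ V : Set (Fin n →₀ ℕ), (∀ a, pwP p c a → a ∈ V) →
      {a ∈ V | a.degree = e}.ncard =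
        (famOf p c e V).card + ((degSet n e).filter (pwP p c)).card := by
    intro V hV
    rw [← Finset.card_union_of_disjoint, ← Set.ncard_coe_finset]
    · congr 1
      ext a
      simp only [Finset.coe_union, Set.mem_union, Finset.mem_coe, mem_famOf, Finset.mem_filter,
        mem_degSet, Set.mem_ofPred_eq]
      constructor
      · rintro ⟨h1, h2⟩
        by_cases h : pwP p c a
        · exact Or.inr ⟨h2, h⟩
        · exact Or.inl ⟨h2, h1, h⟩
      · rintro (⟨h1, h2, -⟩ | ⟨h1, h2⟩)
        · exact ⟨h2, h1⟩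
        · exact ⟨hV a h2, h1⟩
    · exact Finset.disjoint_left.2 fun a h1 h2 =>
        (mem_famOf.1 h1).2.2 (Finset.mem_filter.1 h2).2
  have hcardeq : (famOf p c e U).card = (famOf p c e {a | Lex.inJ p c I a}).card := by
    have h1 := hUcount e
    rw [hcard U hPU] at h1
    have h2 := hHFJ e
    rw [hJI, Vale.Agent.P200b.Result.monomial_hilbert _ hJup, hcard _ hPJ] at h2
    change _ = Module.finrank K (piece I e) at h2
    omega
  refine bR_seg_le (κ := Lex.cap p c e) (Lex.cap_mono p c e)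
    (fun l hl => if_pos hl) q e (fun a => Lex.mem_box_cap (Nat.le_succ e)) _ _
    (fun a ha => ⟨(mem_famOf.1 ha).1, (mem_famOf.1 ha).2.2⟩)
    (fun a ha => ⟨(mem_famOf.1 ha).1, (mem_famOf.1 ha).2.2⟩) ?_ hcardeq
  intro a ha b hb hbP hab
  obtain ⟨hd, haJ, haP⟩ := mem_famOf.1 ha
  refine mem_famOf.2 ⟨hb, ?_, hbP⟩
  rcases haJ with h | h
  · exact absurd h haP
  refine Or.inr ?_
  rw [hb, ← hd]
  refine lt_of_le_of_lt (Set.ncard_le_ncard ?_ ?_) h
  · rintro x ⟨h1, h2, h3⟩
    exact ⟨h1, h2, hab.trans h3⟩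
  · exact (degSet n a.degree).finite_toSet.subset fun x hx => mem_degSet.2 hx.1

end Vale.Agent.P200e
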