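import Vale.Agent.P200.CL

/-!
Lex segments maximise the number of covered Koszul indices among stable families in a box, for
caps given by a common exponent.
-/

noncomputable section

namespace Vale.Agent.P200e

open Vale.Agent.P200

variable {n m E : ℕ}

/-- A position of a Koszul chain which is covered by a canonical boundary. -/
def Cov (E : ℕ) (cp : Fin n → Prop) (a : Fin n → ℕ) (T : Finset (Fin n)) : Prop :=
  ∃ k, k ∉ T ∧ 0 < a k ∧ ∀ l, k < l → (l ∈ T → cp l ∧ a l + 1 = E) ∧ (l ∉ T → a l = 0)

/-- The number of covered sets of a given size. -/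
def covN (E : ℕ) (cp : Fin n → Prop) (p : ℕ) (a : Fin n → ℕ) : ℕ := by
  classical exact ((Finset.univ.powersetCard p).filter (Cov E cp a)).card

/-- Moving one unit from `j` to `i`. -/
def mv (a : Fin n → ℕ) (j i : Fin n) : Fin n → ℕ := fun l =>
  if l = i then a l + 1 else if l = j then a l - 1 else a l

theorem sum_mv (a : Fin n → ℕ) {j i : Fin n} (h : i ≠ j) (hj : 0 < a j) :
    ∑ l, mv a j i l = ∑ l, a l := by
  classical
  have e : ∀ l, mv a j i l + (if l = j then 1 else 0) = a l + (if l = i then 1 else 0) := by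
    intro l
    by_cases hi : l = i
    · subst hi; simp [mv, h]
    · by_cases hjl : l = j
      · subst hjl; simp [mv, hi]; omega
      · simp [mv, hi, hjl]
  have h1 := Finset.sum_congr rfl fun l (_ : l ∈ Finset.univ) => e l
  rw [Finset.sum_add_distrib, Finset.sum_add_distrib, Finset.sum_ite_eq' _ j,
    Finset.sum_ite_eq' _ i] at h1
  simpa using h1

/-- Closed under moving units to smaller indices inside the box. -/
def Stab (κ : Fin n → ℕ) (e : ℕ) (A : Finset (Fin n → ℕ)) : Prop :=
  ∀ a ∈ A, ∀ i j, i < j → 0 < a j → mv a j i ∈ CL.box κ e → mv a j i ∈ A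

theorem covN_snoc (cp : Fin (m + 1) → Prop) (p : ℕ) (a : Fin (m + 1) → ℕ) :
    ∃ (u : ℕ → ℕ) (q : ℕ → ℕ) (w : ℕ → ℕ), ∀ z : Fin m → ℕ,
      covN E cp p (Fin.snoc z (a (Fin.last m))) =
        u 0 + w 0 * covN E (cp ∘ Fin.castSucc) (q 0) z + w 1 * covN E (cp ∘ Fin.castSucc) (q 1) z := by
  classical
  set b := a (Fin.last m)
  refine ⟨fun _ => if b = 0 then 0 else m.choose p,
    fun i => if i = 0 then p else p - 1,
    fun i => if i = 0 then (if b = 0 then 1 else 0)
      else (if cp (Fin.last m) ∧ b + 1 = E ∧ 0 < p then 1 else 0), fun z => ?_⟩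
  simp only [if_true, if_neg one_ne_zero]
  set S := (Finset.univ : Finset (Fin (m + 1))).powersetCard p
  have hsplit : covN E cp p (Fin.snoc z b) =
      ((S.filter fun T => Fin.last m ∉ T).filter (Cov E cp (Fin.snoc z b))).card +
      ((S.filter fun T => Fin.last m ∈ T).filter (Cov E cp (Fin.snoc z b))).card := by
    rw [← Finset.card_union_of_disjoint]
    · unfold covN
      congr 1
      ext T
      simp only [Finset.mem_filter, Finset.mem_union]
      by_cases h : Fin.last m ∈ T <;> simp [h, S]
    · exact Finset.disjoint_left.2 fun T h1 h2 =>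
        (Finset.mem_filter.1 (Finset.mem_filter.1 h1).1).2 (Finset.mem_filter.1 (Finset.mem_filter.1 h2).1).2
  have hpre : ∀ T : Finset (Fin (m + 1)), (T.preimage Fin.castSucc
      (Fin.castSucc_injective m).injOn).map Fin.castSuccEmb = T.erase (Fin.last m) := by
    intro T
    ext l
    induction l using Fin.lastCases with
    | last => simp
    | cast l => simp [Fin.castSucc_ne_last]
  have hcov : ∀ T : Finset (Fin (m + 1)), Cov E cp (Fin.snoc z b) T ↔
      (Fin.last m ∉ T ∧ 0 < b) ∨ ((Fin.last m ∈ T → cp (Fin.last m) ∧ b + 1 = E) ∧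
        (Fin.last m ∉ T → b = 0) ∧ Cov E (cp ∘ Fin.castSucc) z
          (T.preimage Fin.castSucc (Fin.castSucc_injective m).injOn)) := by
    intro T
    constructor
    · rintro ⟨k, hk, hka, hl⟩
      induction k using Fin.lastCases with
      | last => exact Or.inl ⟨hk, by simpa using hka⟩
      | cast k =>
        have hb := hl (Fin.last m) (Fin.castSucc_lt_last k)
        simp only [Fin.snoc_last] at hb
        refine Or.inr ⟨hb.1, hb.2, k, by simpa using hk, by simpa using hka, fun l hkl => ?_⟩
        simpa using hl l.castSucc (by simpa using hkl)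
    · rintro (⟨h1, h2⟩ | ⟨h1, h2, k, hk, hka, hl⟩)
      · exact ⟨Fin.last m, h1, by simpa using h2,
          fun l hl => absurd hl (not_lt.2 (Fin.le_last l))⟩
      · refine ⟨k.castSucc, by simpa using hk, by simpa using hka, fun l hkl => ?_⟩
        induction l using Fin.lastCases with
        | last => simpa using And.intro h1 h2
        | cast l => simpa using hl l (by simpa using hkl)
  have hmap : ∀ q, ∀ T' ∈ (Finset.univ : Finset (Fin m)).powersetCard q,
      (T'.map Fin.castSuccEmb).preimage Fin.castSucc (Fin.castSucc_injective m).injOn = T' := by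
    intro q T' _
    ext l
    simp
  have h1 : ((S.filter fun T => Fin.last m ∉ T).filter (Cov E cp (Fin.snoc z b))).card =
      if b = 0 then covN E (cp ∘ Fin.castSucc) p z else m.choose p := by
    have hb : ((S.filter fun T => Fin.last m ∉ T).filter (Cov E cp (Fin.snoc z b))).card =
        ((Finset.univ.powersetCard p).filter fun T' : Finset (Fin m) =>
          0 < b ∨ Cov E (cp ∘ Fin.castSucc) z T').card := by
      refine Finset.card_nbij' (fun T => T.preimage Fin.castSucc (Fin.castSucc_injective m).injOn)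
        (fun T' => T'.map Fin.castSuccEmb) ?_ ?_ ?_ ?_
      · intro T hT
        simp only [Finset.coe_filter, Finset.mem_filter, S, Finset.mem_powersetCard_univ,
          Set.mem_ofPred_eq] at hT ⊢
        obtain ⟨⟨hc, hl⟩, hcv⟩ := hT
        refine ⟨?_, ?_⟩
        · rw [← hc, ← Finset.card_map Fin.castSuccEmb, hpre, Finset.erase_eq_of_notMem hl]
        · rcases (hcov T).1 hcv with h | h
          · exact Or.inl h.2
          · exact Or.inr h.2.2
      · intro T' hT
        simp only [Finset.coe_filter, Finset.mem_filter, S, Finset.mem_powersetCard_univ,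
          Set.mem_ofPred_eq] at hT ⊢
        have hl : Fin.last m ∉ T'.map Fin.castSuccEmb := by simp
        refine ⟨⟨by simpa using hT.1, hl⟩, (hcov _).2 ?_⟩
        rcases Nat.eq_zero_or_pos b with hb | hb
        · refine Or.inr ⟨fun h => absurd h hl, fun _ => hb, ?_⟩
          rw [hmap p T' (Finset.mem_powersetCard_univ.2 hT.1)]
          exact hT.2.resolve_left (by omega)
        · exact Or.inl ⟨hl, hb⟩
      · intro T hT
        simp only [Finset.coe_filter, Finset.mem_filter, Set.mem_ofPred_eq] at hT
        show Finset.map _ _ = T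
        rw [hpre, Finset.erase_eq_of_notMem hT.1.2]
      · intro T' hT
        simp only [Finset.coe_filter, Set.mem_ofPred_eq] at hT
        exact hmap p T' hT.1
    rw [hb]
    split_ifs with hb0
    · unfold covN
      congr 1
      ext T'
      simp [hb0]
    · rw [Finset.filter_true_of_mem (fun T' _ => Or.inl (Nat.pos_of_ne_zero hb0))]
      simp
  have h2 : ((S.filter fun T => Fin.last m ∈ T).filter (Cov E cp (Fin.snoc z b))).card =
      if cp (Fin.last m) ∧ b + 1 = E ∧ 0 < p then covN E (cp ∘ Fin.castSucc) (p - 1) z else 0 := by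
    split_ifs with hc
    · unfold covN
      refine Finset.card_nbij' (fun T => T.preimage Fin.castSucc (Fin.castSucc_injective m).injOn)
        (fun T' => insert (Fin.last m) (T'.map Fin.castSuccEmb)) ?_ ?_ ?_ ?_
      · intro T hT
        simp only [Finset.coe_filter, Finset.mem_filter, S, Finset.mem_powersetCard_univ,
          Set.mem_ofPred_eq] at hT ⊢
        obtain ⟨⟨hc', hl⟩, hcv⟩ := hT
        refine ⟨?_, ((hcov T).1 hcv |>.resolve_left fun h => h.1 hl).2.2⟩
        rw [← Finset.card_map Fin.castSuccEmb, hpre, Finset.card_erase_of_mem hl, hc']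
      · intro T' hT
        simp only [Finset.coe_filter, Finset.mem_filter, S, Finset.mem_powersetCard_univ,
          Set.mem_ofPred_eq] at hT ⊢
        have hl : Fin.last m ∉ T'.map Fin.castSuccEmb := by simp
        refine ⟨⟨?_, Finset.mem_insert_self _ _⟩, (hcov _).2 (Or.inr ⟨fun _ => ⟨hc.1, hc.2.1⟩,
          fun h => absurd (Finset.mem_insert_self _ _) h, ?_⟩)⟩
        · rw [Finset.card_insert_of_notMem hl, Finset.card_map, hT.1]
          omega
        · have : (insert (Fin.last m) (T'.map Fin.castSuccEmb)).preimage Fin.castSucc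
              (Fin.castSucc_injective m).injOn = T' := by
            ext l; simp [Fin.castSucc_ne_last]
          rw [this]
          exact hT.2
      · intro T hT
        simp only [Finset.coe_filter, Finset.mem_filter, Set.mem_ofPred_eq] at hT
        show insert _ (Finset.map _ _) = T
        rw [hpre, Finset.insert_erase hT.1.2]
      · intro T' _
        show (insert (Fin.last m) (T'.map Fin.castSuccEmb)).preimage _ _ = T'
        ext l; simp [Fin.castSucc_ne_last]
    · rw [Finset.card_eq_zero, Finset.filter_eq_empty_iff]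
      intro T hT hcv
      simp only [S, Finset.mem_filter, Finset.mem_powersetCard_univ] at hT
      have := ((hcov T).1 hcv).resolve_left fun h => h.1 hT.2
      exact hc ⟨(this.1 hT.2).1, (this.1 hT.2).2, hT.1 ▸ Finset.card_pos.2 ⟨_, hT.2⟩⟩
  rw [hsplit, h1, h2]
  split_ifs <;> simp

theorem covN_le_choose (cp : Fin (m + 1) → Prop) (p : ℕ) (a : Fin (m + 1) → ℕ)
    (h : cp (Fin.last m) → a (Fin.last m) + 1 ≠ E) : covN E cp p a ≤ m.choose p := by
  classical
  calc covN E cp p a ≤ ((Finset.univ.erase (Fin.last m)).powersetCard p).card := by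
        refine Finset.card_le_card fun T hT => ?_
        simp only [Finset.mem_filter, Finset.mem_powersetCard_univ] at hT
        refine Finset.mem_powersetCard.2 ⟨fun l hl => Finset.mem_erase.2 ⟨?_, Finset.mem_univ _⟩,
          hT.1⟩
        rintro rfl
        obtain ⟨k, hk, -, hkl⟩ := hT.2
        have hlt : k < Fin.last m := lt_of_le_of_ne (Fin.le_last k) (fun e => hk (e ▸ hl))
        obtain ⟨hc, h1⟩ := (hkl _ hlt).1 hl
        exact h hc h1
    _ = m.choose p := by simp

theorem choose_le_covN (cp : Fin (m + 1) → Prop) (p : ℕ) (a : Fin (m + 1) → ℕ)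
    (h : 0 < a (Fin.last m)) : m.choose p ≤ covN E cp p a := by
  classical
  calc m.choose p = ((Finset.univ.erase (Fin.last m)).powersetCard p).card := by simp
    _ ≤ covN E cp p a := by
      refine Finset.card_le_card fun T hT => ?_
      obtain ⟨hsub, hc⟩ := Finset.mem_powersetCard.1 hT
      refine Finset.mem_filter.2 ⟨Finset.mem_powersetCard_univ.2 hc, Fin.last m,
        fun hl => (Finset.mem_erase.1 (hsub hl)).1 rfl, h,
        fun l hl => absurd hl (not_lt.2 (Fin.le_last l))⟩

/-- Layers are segments and shadows of layers go down. -/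
def LayerSeg (κ : Fin (m + 1) → ℕ) (e : ℕ) (A : Finset (Fin (m + 1) → ℕ)) : Prop :=
  A ⊆ CL.box κ e ∧
  (∀ a ∈ A, ∀ b ∈ CL.box κ e, CL.gtL b a → b (Fin.last m) = a (Fin.last m) → b ∈ A) ∧
  ∀ a ∈ A, ∀ t, t < Fin.last m → 0 < a (Fin.last m) → mv a (Fin.last m) t ∈ CL.box κ e →
    mv a (Fin.last m) t ∈ A

theorem last_lt {κ : Fin (m + 1) → ℕ} {e : ℕ} {A : Finset (Fin (m + 1) → ℕ)}
    (hA : LayerSeg κ e A) {y : Fin (m + 1) → ℕ} (hy : y ∈ CL.box κ e) (hyA : y ∉ A) :
    ∀ (N : ℕ) (x : Fin (m + 1) → ℕ), x (Fin.last m) = N → x ∈ A → CL.gtL y x →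
      x (Fin.last m) < y (Fin.last m) := by
  classical
  intro N
  induction N using Nat.strong_induction_on with
  | _ N ih =>
    intro x hxN hxA hgt
    by_contra hle
    push Not at hle
    rcases hle.eq_or_lt with heq | hlt
    · exact hyA (hA.2.1 x hxA y hy hgt heq)
    obtain ⟨i, hi, hil⟩ := hgt
    have hxb := CL.mem_box.1 (hA.1 hxA)
    have hyb := CL.mem_box.1 hy
    have hil' : i < Fin.last m := lt_of_le_of_ne (Fin.le_last i) (fun e => by subst e; omega)
    have hpos : 0 < x (Fin.last m) := by omega
    have key : ∀ t, i ≤ t → t < Fin.last m → x t + 1 < κ t →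
        (mv x (Fin.last m) t = y ∨ CL.gtL y (mv x (Fin.last m) t)) → False := by
      intro t hit htl hroom h
      have hbox : mv x (Fin.last m) t ∈ CL.box κ e := by
        refine CL.mem_box.2 ⟨(sum_mv x htl.ne hpos).trans hxb.1, fun l => ?_⟩
        simp only [mv]
        split_ifs with h1 h2
        · subst h1; exact hroom
        · have := hxb.2 l; omega
        · exact hxb.2 l
      have hzA := hA.2.2 x hxA t htl hpos hbox
      have hzl : mv x (Fin.last m) t (Fin.last m) = x (Fin.last m) - 1 := by
        simp [mv, htl.ne']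
      rcases h with h | h
      · exact hyA (h ▸ hzA)
      · have := ih (x (Fin.last m) - 1) (by omega) _ hzl hzA h
        omega
    by_cases hex : ∃ t, i < t ∧ t < Fin.last m ∧ x t + 1 < κ t
    · obtain ⟨t, h1, h2, h3⟩ := hex
      refine key t h1.le h2 h3 (Or.inr ⟨i, fun l hl => ?_, ?_⟩)
      · simp [mv, (hl.trans h1).ne, (hl.trans hil').ne, hi l hl]
      · simp [mv, h1.ne, hil'.ne, hil]
    push Not at hex
    refine key i le_rfl hil' (by have := hyb.2 i; omega) ?_
    by_cases hii : x i + 1 < y i
    · refine Or.inr ⟨i, fun l hl => ?_, ?_⟩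
      · simp [mv, hl.ne, (hl.trans hil').ne, hi l hl]
      · simp [mv, hii]
    left
    have hall : ∀ l, y l ≤ mv x (Fin.last m) i l := by
      intro l
      simp only [mv]
      split_ifs with h1 h2
      · subst h1; omega
      · subst h2; omega
      · rcases lt_trichotomy l i with h | h | h
        · rw [hi l h]
        · exact absurd h h1
        · have := hex l h (lt_of_le_of_ne (Fin.le_last l) h2)
          have := hyb.2 l
          omega
    have hsum := (sum_mv x hil'.ne hpos).trans (hxb.1.trans hyb.1.symm)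
    funext l
    exact ((Finset.sum_eq_sum_iff_of_le fun l _ => hall l).1 hsum.symm l (Finset.mem_univ l)).symm

/-- Lex segments maximise the covered count among stable families of the same size. -/
theorem sum_covN_le : ∀ {n : ℕ} {κ : Fin n → ℕ} (cp : Fin n → Prop), Monotone κ →
    (∀ l, cp l → κ l = E) → ∀ (p e : ℕ) (A L : Finset (Fin n → ℕ)), A ⊆ CL.box κ e →
    Stab κ e A → CL.IsSeg κ e L → A.card = L.card →
    ∑ a ∈ A, covN E cp p a ≤ ∑ a ∈ L, covN E cp p a := by
  classical
  intro n
  induction n with
  | zero =>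
    intro κ cp _ _ p e A L hA _ hL hc
    rw [Finset.eq_of_subset_of_card_le (hL.subset_of_card_le
      (CL.isSeg_of_le_one (Nat.zero_le 1) hA) hc.ge) hc.le]
  | succ m ih =>
    intro κ cp hκ hcp p e A L hA hst hL hc
    set κ' := κ ∘ (Fin.last m).succAbove
    have hκ' : Monotone κ' := hκ.comp (Fin.strictMono_succAbove _).monotone
    have hLb : ∀ b, ∃ S, CL.IsSeg κ' (e - b) S ∧ S.card = (CL.fib A (Fin.last m) b).card :=
      fun b => CL.exists_seg κ' (e - b) _ (Finset.card_le_card (CL.fib_subset κ hA _ b))
    choose S hS hSc using hLb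
    set A1 := (CL.box κ e).filter fun a =>
      ((Fin.last m).removeNth a : Fin m → ℕ) ∈ S (a (Fin.last m))
    have hfib : ∀ b ≤ e, b < κ (Fin.last m) → CL.fib A1 (Fin.last m) b = S b := by
      intro b hb hbκ
      ext z
      rw [CL.mem_fib, Finset.mem_filter, Fin.removeNth_insertNth, Fin.insertNth_apply_same]
      exact ⟨fun h => h.2, fun h => ⟨(CL.insertNth_mem_box κ).2 ⟨hbκ, hb, (hS b).1 h⟩, h⟩⟩
    have hA1 : LayerSeg κ e A1 := by
      refine ⟨Finset.filter_subset _ _, fun a ha b hb hgt heq => ?_, fun a ha t ht hpos hbox => ?_⟩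
      · obtain ⟨hab, haS⟩ := Finset.mem_filter.1 ha
        refine Finset.mem_filter.2 ⟨hb, ?_⟩
        rw [heq]
        refine (hS _).2 _ haS _ ?_ ((CL.gtL_insertNth_iff heq).1 hgt)
        have := (CL.insertNth_mem_box κ (i := Fin.last m)).1
          (show (Fin.last m).insertNth (b (Fin.last m)) ((Fin.last m).removeNth b) ∈ CL.box κ e by
            rw [Fin.insertNth_self_removeNth]; exact hb)
        rw [heq] at this
        exact this.2.2
      · obtain ⟨hab, haS⟩ := Finset.mem_filter.1 ha
        refine Finset.mem_filter.2 ⟨hbox, ?_⟩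
        obtain ⟨t', rfl⟩ : ∃ t' : Fin m, (Fin.last m).succAbove t' = t :=
          Fin.exists_succAbove_eq ht.ne
        set b := a (Fin.last m)
        have hb1 : mv a (Fin.last m) ((Fin.last m).succAbove t') (Fin.last m) = b - 1 := by
          simp [mv, b, Fin.succAbove_last, (Fin.castSucc_ne_last t').symm]
        rw [hb1]
        have hbe : b ≤ e := (CL.mem_box.1 hab).1 ▸
          Finset.single_le_sum (f := a) (fun j _ => Nat.zero_le _) (Finset.mem_univ (Fin.last m))
        have he : e - (b - 1) = e - b + 1 := by omega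
        have hsub : CL.sh κ' (e - b) (S b) ⊆ S (b - 1) := by
          have h1 := (hS b).sh
          have h2 := hS (b - 1)
          rw [he] at h2
          refine h1.subset_of_card_le h2 ?_
          refine le_trans (CL.clements_lindstrom hκ' (e - b) _ (S b) (CL.fib_subset κ hA _ b)
            (hS b) (hSc b).symm) ?_
          rw [hSc (b - 1)]
          refine Finset.card_le_card fun y hy => ?_
          obtain ⟨hyb, s, hs, hsA⟩ := CL.mem_sh.1 hy
          rw [CL.mem_fib] at hsA ⊢
          set x : Fin (m + 1) → ℕ := (Fin.last m).insertNth b (y - Pi.single s 1)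
          have hmv : mv x (Fin.last m) ((Fin.last m).succAbove s) =
              ((Fin.last m).insertNth (b - 1) y : Fin (m + 1) → ℕ) := by
            funext l
            rcases Fin.eq_self_or_eq_succAbove (Fin.last m) l with rfl | ⟨l', rfl⟩
            · simp [mv, x, Fin.succAbove_last, (Fin.castSucc_ne_last s).symm]
            · by_cases hl : l' = s
              · subst hl; simp [mv, x]; omega
              · simp [mv, x, hl, Fin.succAbove_ne]
          rw [← hmv]
          refine hst x hsA _ _ (lt_of_le_of_ne (Fin.le_last _) (Fin.succAbove_ne _ _))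
            (by simpa [x] using hpos) ?_
          rw [hmv, CL.insertNth_mem_box κ]
          refine ⟨?_, by omega, he ▸ hyb⟩
          have := (CL.mem_box.1 hab).2 (Fin.last m)
          omega
        refine hsub (CL.mem_sh.2 ⟨?_, t', ?_, ?_⟩)
        · rw [← he]
          have := (CL.insertNth_mem_box κ (i := Fin.last m)).1 (show (Fin.last m).insertNth
            (mv a (Fin.last m) ((Fin.last m).succAbove t') (Fin.last m))
            ((Fin.last m).removeNth (mv a (Fin.last m) ((Fin.last m).succAbove t'))) ∈ CL.box κ e by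
              rw [Fin.insertNth_self_removeNth]; exact hbox)
          rw [hb1] at this
          exact this.2.2
        · simp [Fin.removeNth, mv]
        · convert haS using 1
          funext l
          by_cases hl : l = t'
          · subst hl; simp [Fin.removeNth, Fin.init, mv]
          · simp [Fin.removeNth, Fin.init, mv, hl, Fin.castSucc_ne_last]
    have hcard : ∀ (w : (Fin (m + 1) → ℕ) → ℕ), (∀ b ≤ e, b < κ (Fin.last m) →
        ∑ z ∈ CL.fib A (Fin.last m) b, w ((Fin.last m).insertNth b z) ≤
          ∑ z ∈ S b, w ((Fin.last m).insertNth b z)) → ∑ a ∈ A, w a ≤ ∑ a ∈ A1, w a := by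
      intro w hw
      rw [CL.card_eq_sum_fib κ hA (Fin.last m) w, CL.card_eq_sum_fib κ hA1.1 (Fin.last m) w]
      refine Finset.sum_le_sum fun b hb => ?_
      by_cases hbκ : b < κ (Fin.last m)
      · rw [hfib b (Nat.lt_succ_iff.1 (Finset.mem_range.1 hb)) hbκ]
        exact hw b (Nat.lt_succ_iff.1 (Finset.mem_range.1 hb)) hbκ
      · rw [Finset.sum_eq_zero fun z hz => absurd
          ((CL.insertNth_mem_box κ).1 (hA (CL.mem_fib.1 hz))).1 hbκ]
        exact Nat.zero_le _
    have hcA1 : A1.card = A.card := by
      rw [Finset.card_eq_sum_ones, Finset.card_eq_sum_ones A,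
        CL.card_eq_sum_fib κ hA (Fin.last m), CL.card_eq_sum_fib κ hA1.1 (Fin.last m)]
      refine Finset.sum_congr rfl fun b hb => ?_
      by_cases hbκ : b < κ (Fin.last m)
      · rw [hfib b (Nat.lt_succ_iff.1 (Finset.mem_range.1 hb)) hbκ, ← Finset.card_eq_sum_ones,
          ← Finset.card_eq_sum_ones, hSc]
      · rw [Finset.sum_eq_zero fun z hz => absurd
          ((CL.insertNth_mem_box κ).1 (hA (CL.mem_fib.1 hz))).1 hbκ,
          Finset.sum_eq_zero fun z hz => absurd
          ((CL.insertNth_mem_box κ).1 (hA1.1 (CL.mem_fib.1 hz))).1 hbκ]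
    have hstep : ∑ a ∈ A, covN E cp p a ≤ ∑ a ∈ A1, covN E cp p a := by
      refine hcard _ fun b hb hbκ => ?_
      obtain ⟨u, q, w, huqw⟩ := covN_snoc (E := E) cp p (fun _ => b)
      simp only [Fin.insertNth_last', huqw, Finset.sum_add_distrib, ← Finset.mul_sum,
        Finset.sum_const, hSc b]
      have hst' : Stab κ' (e - b) (CL.fib A (Fin.last m) b) := by
        intro z hz i j hij hj hbox
        rw [CL.mem_fib] at hz ⊢
        have hmv : mv ((Fin.last m).insertNth b z : Fin (m + 1) → ℕ) ((Fin.last m).succAbove j)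
            ((Fin.last m).succAbove i) = ((Fin.last m).insertNth b (mv z j i) : Fin (m + 1) → ℕ) := by
          funext l
          rcases Fin.eq_self_or_eq_succAbove (Fin.last m) l with rfl | ⟨l', rfl⟩
          · simp [mv, Fin.succAbove_last, (Fin.castSucc_ne_last i).symm, (Fin.castSucc_ne_last j).symm]
          · by_cases h1 : l' = i
            · subst h1; simp [mv]
            · by_cases h2 : l' = j
              · subst h2; simp [mv, h1]
              · simp [mv, h1, h2]
        rw [← hmv]
        refine hst _ hz _ _ ((Fin.strictMono_succAbove _) hij) (by simpa using hj) ?_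
        rw [hmv, CL.insertNth_mem_box κ]
        exact ⟨hbκ, hb, hbox⟩
      have hcp' : ∀ l, (cp ∘ Fin.castSucc) l → κ' l = E := fun l hl => by
        simpa [κ'] using hcp _ hl
      exact Nat.add_le_add (Nat.add_le_add le_rfl
        (Nat.mul_le_mul le_rfl (ih (cp ∘ Fin.castSucc) hκ' hcp' _ _ _ _ (CL.fib_subset κ hA _ b) hst'
          (hS b) (hSc b).symm))) (Nat.mul_le_mul le_rfl (ih (cp ∘ Fin.castSucc) hκ' hcp' _ _ _ _
            (CL.fib_subset κ hA _ b) hst' (hS b) (hSc b).symm))
    let cand := (CL.box κ e).powerset.filter fun B => LayerSeg κ e B ∧ B.card = A.card ∧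
      ∑ a ∈ A, covN E cp p a ≤ ∑ a ∈ B, covN E cp p a
    obtain ⟨B, hB, hBmax⟩ := cand.exists_max_image (fun B => ∑ a ∈ B, CL.rk κ e a)
      ⟨A1, Finset.mem_filter.2 ⟨Finset.mem_powerset.2 hA1.1, hA1, hcA1, hstep⟩⟩
    simp only [cand, Finset.mem_filter, Finset.mem_powerset] at hB hBmax
    obtain ⟨-, hBL, hBc, hBs⟩ := hB
    by_cases hseg : CL.IsSeg κ e B
    · rw [Finset.eq_of_subset_of_card_le (hL.subset_of_card_le hseg (by omega)) (by omega)]
      exact hBs
    exfalso
    obtain ⟨a, ha, b, hb, hgt, hbB⟩ : ∃ a ∈ B, ∃ b ∈ CL.box κ e, CL.gtL b a ∧ b ∉ B := by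
      by_contra h
      push Not at h
      exact hseg ⟨hBL.1, h⟩
    obtain ⟨x, hxB, hxmin⟩ := B.exists_min_image (CL.rk κ e) ⟨a, ha⟩
    obtain ⟨y, hy, hymax⟩ := (CL.box κ e \ B).exists_max_image (CL.rk κ e)
      ⟨b, Finset.mem_sdiff.2 ⟨hb, hbB⟩⟩
    obtain ⟨hyb, hyB⟩ := Finset.mem_sdiff.1 hy
    have hmin : ∀ u ∈ B, ¬ CL.gtL x u := fun u hu h =>
      absurd (CL.rk_lt (hBL.1 hu) h) (not_lt.2 (hxmin u hu))
    have hmax : ∀ u ∈ CL.box κ e, CL.gtL u y → u ∈ B := fun u hu h => by
      by_contra hn
      exact absurd (CL.rk_lt hyb h) (not_lt.2 (hymax u (Finset.mem_sdiff.2 ⟨hu, hn⟩)))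
    have hyx : CL.gtL y x := by
      rcases CL.gtL_total (show y ≠ x from fun h => hyB (h ▸ hxB)) with h | h
      · exact h
      · exfalso
        have h1 : CL.rk κ e a < CL.rk κ e b := CL.rk_lt (hBL.1 ha) hgt
        have h2 := CL.rk_lt hyb h
        have h3 := hxmin a ha
        have h4 := hymax b (Finset.mem_sdiff.2 ⟨hb, hbB⟩)
        omega
    have hlast := last_lt hBL hyb hyB _ x rfl hxB hyx
    have hcov : covN E cp p x ≤ covN E cp p y := by
      refine le_trans (covN_le_choose cp p x fun hc' hx1 => ?_) (choose_le_covN cp p y (by omega))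
      have h1 := (CL.mem_box.1 hyb).2 (Fin.last m)
      rw [hcp _ hc'] at h1
      omega
    have hne : y ∉ B.erase x := fun h => hyB (Finset.mem_of_mem_erase h)
    have hB' : LayerSeg κ e (insert y (B.erase x)) := by
      refine ⟨Finset.insert_subset hyb ((Finset.erase_subset _ _).trans hBL.1), ?_, ?_⟩
      · intro u hu v hv hvu hl
        rcases Finset.mem_insert.1 hu with rfl | hu
        · have := hmax v hv hvu
          refine Finset.mem_insert_of_mem (Finset.mem_erase.2 ⟨fun h => ?_, this⟩)
          subst h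
          exact CL.gtL_irrefl _ (hvu.trans hyx)
        · obtain ⟨-, huB⟩ := Finset.mem_erase.1 hu
          refine Finset.mem_insert_of_mem (Finset.mem_erase.2 ⟨fun h => ?_,
            hBL.2.1 u huB v hv hvu hl⟩)
          exact hmin u huB (h ▸ hvu)
      · intro u hu t ht hpos hbox
        have hup : CL.gtL (mv u (Fin.last m) t) u := by
          refine ⟨t, fun l hl => ?_, by simp [mv]⟩
          simp [mv, hl.ne, (hl.trans ht).ne]
        rcases Finset.mem_insert.1 hu with rfl | hu
        · refine Finset.mem_insert_of_mem (Finset.mem_erase.2 ⟨fun h => ?_, hmax _ hbox hup⟩)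
          exact CL.gtL_irrefl _ (hyx.trans (h ▸ hup))
        · obtain ⟨-, huB⟩ := Finset.mem_erase.1 hu
          refine Finset.mem_insert_of_mem (Finset.mem_erase.2 ⟨fun h => hmin u huB (h ▸ hup),
            hBL.2.2 u huB t ht hpos hbox⟩)
    have hsum : ∀ w : (Fin (m + 1) → ℕ) → ℕ,
        ∑ u ∈ insert y (B.erase x), w u + w x = ∑ u ∈ B, w u + w y := fun w => by
      have := Finset.add_sum_erase B w hxB
      rw [Finset.sum_insert hne]; omega
    have h5 := hBmax (insert y (B.erase x)) ⟨hB'.1, hB', ?_, ?_⟩
    · have := hsum (CL.rk κ e)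
      have := CL.rk_lt (hBL.1 hxB) hyx
      omega
    · rw [Finset.card_insert_of_notMem hne, Finset.card_erase_of_mem hxB]
      have := Finset.card_pos.2 ⟨x, hxB⟩
      omega
    · have := hsum (covN E cp p)
      omega

end Vale.Agent.P200e
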