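import Vale.Agent.P200e.Model

/-!
Shifting families of exponents outside the powers of the first variables, in characteristic equal
to the exponent, without increasing boundary ranks.
-/

noncomputable section

namespace Vale.Agent.P200e

open MvPolynomial Vale.Agent.P200b

variable {K : Type*} [Field K] {n c E : ℕ} {i j : Fin n}

/-- Moving one unit of an exponent from `j` to `i`. -/
def shx (i j : Fin n) (a : Fin n →₀ ℕ) : Fin n →₀ ℕ :=
  a - Finsupp.single j 1 + Finsupp.single i 1

theorem shx_add {a : Fin n →₀ ℕ} (h : 0 < a j) :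
    shx i j a + Finsupp.single j 1 = a + Finsupp.single i 1 := by
  rw [shx, add_right_comm, tsub_add_cancel_of_le (Finsupp.single_le_iff.2 h)]

theorem shx_degree {a : Fin n →₀ ℕ} (h : 0 < a j) : (shx i j a).degree = a.degree := by
  have := congrArg Finsupp.degree (shx_add (i := i) h)
  rw [map_add, map_add, Finsupp.degree_single, Finsupp.degree_single] at this
  omega

theorem lt_shx (hij : i < j) {a : Fin n →₀ ℕ} (h : 0 < a j) : toLex a < toLex (shx i j a) := by
  refine Finsupp.Lex.lt_iff.2 ⟨i, fun l hl => ?_, ?_⟩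
  · simp [shx, hl.ne, (hl.trans hij).ne]
  · simp [shx, hij.ne]

/-- Multiplication by a variable. -/
def mulV (K : Type*) [Field K] (E c : ℕ) (k : Fin n) : CM K n →ₗ[K] CM K n :=
  Finsupp.linearCombination K fun x => one K E c x.1 (x.2 + Finsupp.single k 1)

theorem mulV_single (k : Fin n) (x : Finset (Fin n) × (Fin n →₀ ℕ)) (r : K) :
    mulV K E c k (Finsupp.single x r) = r • one K E c x.1 (x.2 + Finsupp.single k 1) :=
  Finsupp.linearCombination_single _ _ _

theorem mulV_one (k : Fin n) (T : Finset (Fin n)) (a : Fin n →₀ ℕ) :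
    mulV K E c k (one K E c T a) = one K E c T (a + Finsupp.single k 1) := by
  by_cases h : pwP E c a
  · rw [one_pw T h, map_zero, one_pw T (pwP_add _ h)]
  · rw [one_of_not T h, mulV_single, one_smul]

theorem mulV_comm (k l : Fin n) (x : CM K n) :
    mulV K E c k (mulV K E c l x) = mulV K E c l (mulV K E c k x) := by
  refine LinearMap.congr_fun (f := mulV K E c k ∘ₗ mulV K E c l)
    (g := mulV K E c l ∘ₗ mulV K E c k) (Finsupp.lhom_ext fun y r => ?_) x
  simp only [LinearMap.comp_apply, mulV_single, map_smul, mulV_one, add_right_comm]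

theorem dd_mulV (k : Fin n) (x : CM K n) :
    dd K E c (mulV K E c k x) = mulV K E c k (dd K E c x) := by
  refine LinearMap.congr_fun (f := dd K E c ∘ₗ mulV K E c k)
    (g := mulV K E c k ∘ₗ dd K E c) (Finsupp.lhom_ext fun y r => ?_) x
  have e : ∀ s : K, dd K E c (Finsupp.single y s) = s • dd1 K E c y := fun s =>
    Finsupp.linearCombination_single _ _ _
  simp only [LinearMap.comp_apply, mulV_single, e, map_smul, dd_one, dd1, map_sum, mulV_one,
    add_right_comm]

theorem mulV_pow_one (k : Fin n) (T : Finset (Fin n)) : ∀ (m : ℕ) (a : Fin n →₀ ℕ),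
    (mulV K E c k ^ m : Module.End K (CM K n)) (one K E c T a) =
      one K E c T (a + Finsupp.single k m)
  | 0, a => by simp
  | m + 1, a => by
    rw [pow_succ', Module.End.mul_apply, mulV_pow_one k T m a, mulV_one, add_assoc,
      ← Finsupp.single_add]

/-- The twisting coefficient. -/
def tau (K : Type*) [Field K] (c : ℕ) (j : Fin n) (b : ℕ) : K :=
  if j.1 < c then 1 else if b = 0 then 1 else 0

/-- The sum of the first twisting coefficients. -/
def tsum (K : Type*) [Field K] (c : ℕ) (j : Fin n) (b : ℕ) : K := ∑ t ∈ Finset.range b, tau K c j t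

theorem tsum_ne_zero [CharP K E] {b : ℕ} (hb : 0 < b) (h : j.1 < c → b < E) :
    tsum K c j b ≠ 0 := by
  unfold tsum tau
  by_cases hj : j.1 < c
  · simp only [if_pos hj, Finset.sum_const, Finset.card_range, nsmul_eq_mul, mul_one]
    rw [Ne, CharP.cast_eq_zero_iff K E]
    exact fun hd => absurd (Nat.le_of_dvd hb hd) (not_le.2 (h hj))
  · simp only [if_neg hj, Finset.sum_ite_eq', Finset.mem_range, if_pos hb]
    exact one_ne_zero

/-- The image of a power of `x j`, as an operator. -/
def op (K : Type*) [Field K] (E c : ℕ) (i j : Fin n) : ℕ → CM K n →ₗ[K] CM K n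
  | 0 => LinearMap.id
  | b + 1 => (mulV K E c j + tau K c j b • mulV K E c i) ∘ₗ op K E c i j b

theorem op_mulV (k : Fin n) : ∀ (b : ℕ) (x : CM K n),
    op K E c i j b (mulV K E c k x) = mulV K E c k (op K E c i j b x)
  | 0, x => rfl
  | b + 1, x => by
    simp only [op, LinearMap.comp_apply, LinearMap.add_apply, LinearMap.smul_apply, op_mulV k b x,
      map_add, map_smul, mulV_comm k]

theorem dd_op : ∀ (b : ℕ) (x : CM K n),
    dd K E c (op K E c i j b x) = op K E c i j b (dd K E c x)
  | 0, x => rfl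
  | b + 1, x => by
    simp only [op, LinearMap.comp_apply, LinearMap.add_apply, LinearMap.smul_apply, map_add,
      map_smul, dd_mulV, dd_op b x]

theorem op_eq_pow (hj : j.1 < c) : ∀ b : ℕ,
    op K E c i j b = ((mulV K E c j + mulV K E c i) ^ b : Module.End K (CM K n))
  | 0 => rfl
  | b + 1 => by
    rw [pow_succ', ← op_eq_pow hj b, op, tau, if_pos hj, one_smul]
    rfl

/-- The image of a monomial chain under the substitution. -/
def psi (K : Type*) [Field K] (E c : ℕ) (i j : Fin n) (T : Finset (Fin n)) (a : Fin n →₀ ℕ) :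
    CM K n :=
  op K E c i j (a j) (one K E c T (a.erase j))

theorem psi_pw [Fact E.Prime] [CharP K E] (hij : i < j) (T : Finset (Fin n)) {a : Fin n →₀ ℕ}
    (h : pwP E c a) : psi K E c i j T a = 0 := by
  obtain ⟨l, hlc, hl⟩ := h
  unfold psi
  by_cases hlj : l = j
  swap
  · rw [one_pw T ⟨l, hlc, by rw [Finsupp.erase_ne hlj]; exact hl⟩, map_zero]
  subst hlj
  have : CharP (Module.End K (CM K n)) E :=
    charP_of_injective_algebraMap (algebraMap K (Module.End K (CM K n))).injective E
  have hic : i.1 < c := lt_trans (show i.1 < l.1 from hij) hlc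
  have hcomm : Commute (mulV K E c l : Module.End K (CM K n)) (mulV K E c i) :=
    LinearMap.ext fun x => mulV_comm l i x
  obtain ⟨m, hm⟩ := Nat.exists_eq_add_of_le hl
  rw [op_eq_pow hlc, hm, add_comm E m, pow_add, Module.End.mul_apply,
    add_pow_char_of_commute E hcomm, LinearMap.add_apply, mulV_pow_one, mulV_pow_one,
    one_pw T ⟨l, hlc, by simp⟩, one_pw T ⟨i, hic, by simp⟩, add_zero, map_zero]

/-- The sign of replacing `j` by `i`. -/
def sig (K : Type*) [Field K] (i j : Fin n) (T : Finset (Fin n)) : K :=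
  (-1) ^ (T.filter fun l => i < l ∧ l < j).card

/-- Replacing `j` by `i`. -/
def sw (i j : Fin n) (T : Finset (Fin n)) : Finset (Fin n) := insert i (T.erase j)

/-- The shifting map on a monomial chain. -/
def phi1 (K : Type*) [Field K] (E c : ℕ) (i j : Fin n) (x : Finset (Fin n) × (Fin n →₀ ℕ)) :
    CM K n :=
  psi K E c i j x.1 x.2 +
    if j ∈ x.1 ∧ i ∉ x.1 then (tau K c j (x.2 j) * sig K i j x.1) • psi K E c i j (sw i j x.1) x.2
    else 0

/-- The shifting map. -/
def shiftMap (K : Type*) [Field K] (E c : ℕ) (i j : Fin n) : CM K n →ₗ[K] CM K n :=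
  Finsupp.linearCombination K (phi1 K E c i j)

theorem shiftMap_one [Fact E.Prime] [CharP K E] (hij : i < j) (T : Finset (Fin n))
    (a : Fin n →₀ ℕ) : shiftMap K E c i j (one K E c T a) = phi1 K E c i j (T, a) := by
  classical
  by_cases h : pwP E c a
  · rw [one_pw T h, map_zero]
    simp [phi1, psi_pw hij _ h]
  · rw [one_of_not T h, shiftMap, Finsupp.linearCombination_single, one_smul]

theorem psi_eq [Fact E.Prime] [CharP K E] (hij : i < j) (T : Finset (Fin n)) (a : Fin n →₀ ℕ) :
    psi K E c i j T a = shiftMap K E c i j (one K E c T a -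
      if j ∈ T ∧ i ∉ T then (tau K c j (a j) * sig K i j T) • one K E c (sw i j T) a else 0) := by
  by_cases h : j ∈ T ∧ i ∉ T
  · have h' : ¬ (j ∈ sw i j T ∧ i ∉ sw i j T) := fun h' => h'.2 (Finset.mem_insert_self _ _)
    rw [if_pos h, map_sub, map_smul, shiftMap_one hij, shiftMap_one hij, phi1, phi1, if_pos h,
      if_neg h']
    simp
  · rw [if_neg h, sub_zero, shiftMap_one hij, phi1, if_neg h, add_zero]

/-- The shifted product with a variable. -/
def tX (K : Type*) [Field K] (E c : ℕ) (i j k : Fin n) (T : Finset (Fin n)) (v : Fin n →₀ ℕ) :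
    CM K n :=
  mulV K E c k (psi K E c i j T v)

theorem dd_psi (v : Fin n →₀ ℕ) (S : Finset (Fin n)) :
    dd K E c (psi K E c i j S v) =
      ∑ k ∈ S, ((-1 : K) ^ epsX (S.erase k) k) • tX K E c i j k (S.erase k) v := by
  simp only [psi, tX, dd_op, dd_one, map_sum, map_smul, ← op_mulV, mulV_one]

theorem psi_add_ne (v : Fin n →₀ ℕ) {k : Fin n} (hk : k ≠ j) (T : Finset (Fin n)) :
    psi K E c i j T (v + Finsupp.single k 1) = tX K E c i j k T v := by
  have e : (v + Finsupp.single k 1).erase j = v.erase j + Finsupp.single k 1 := by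
    ext l
    by_cases hl : l = j
    · subst hl; simp [hk.symm]
    · simp [hl]
  simp only [psi, tX, e, Finsupp.add_apply, Finsupp.single_eq_of_ne hk.symm, add_zero, ← op_mulV,
    mulV_one]

theorem psi_add_eq (v : Fin n →₀ ℕ) (T : Finset (Fin n)) :
    psi K E c i j T (v + Finsupp.single j 1) =
      tX K E c i j j T v + tau K c j (v j) • tX K E c i j i T v := by
  simp only [psi, tX, Finsupp.erase_add, Finsupp.erase_single, add_zero, Finsupp.add_apply,
    Finsupp.single_eq_same, op, LinearMap.comp_apply, LinearMap.add_apply, LinearMap.smul_apply]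

theorem eps_insert {i k : Fin n} {T : Finset (Fin n)} (h : i ∉ T) :
    epsX (insert i T) k = epsX T k + if i < k then 1 else 0 := by
  unfold epsX
  rw [Finset.filter_insert]
  split_ifs with hik
  · rw [Finset.card_insert_of_notMem (by simp [h])]
  · rfl

theorem eps_erase {i k : Fin n} {T : Finset (Fin n)} (h : i ∈ T) :
    epsX T k = epsX (T.erase i) k + if i < k then 1 else 0 := by
  conv_lhs => rw [← Finset.insert_erase h]
  exact eps_insert (Finset.notMem_erase i T)

theorem btw_erase {k : Fin n} {T : Finset (Fin n)} (h : k ∈ T) :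
    (T.filter fun l => i < l ∧ l < j).card =
      ((T.erase k).filter fun l => i < l ∧ l < j).card + if i < k ∧ k < j then 1 else 0 := by
  rw [Finset.filter_erase]
  split_ifs with hk
  · rw [Finset.card_erase_add_one (by simp [h, hk])]
  · rw [Finset.erase_eq_of_notMem (by simp [hk]), add_zero]

theorem eps_split (hij : i < j) {T : Finset (Fin n)} (hi : i ∉ T) :
    epsX T j = epsX T i + (T.filter fun l => i < l ∧ l < j).card := by
  unfold epsX
  rw [← Finset.card_union_of_disjoint]
  · congr 1
    ext l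
    simp only [Finset.mem_filter, Finset.mem_union]
    constructor
    · rintro ⟨hl, hlj⟩
      rcases lt_trichotomy l i with h | h | h
      · exact Or.inl ⟨hl, h⟩
      · exact absurd (h ▸ hl) hi
      · exact Or.inr ⟨hl, h, hlj⟩
    · rintro (⟨hl, h⟩ | ⟨hl, -, h⟩)
      · exact ⟨hl, h.trans hij⟩
      · exact ⟨hl, h⟩
  · refine Finset.disjoint_left.2 fun l h1 h2 => ?_
    simp only [Finset.mem_filter] at h1 h2
    exact absurd h1.2 (not_lt.2 h2.2.1.le)

theorem shiftMap_dd [Fact E.Prime] [CharP K E] (hij : i < j) (S : Finset (Fin n)) (v : Fin n →₀ ℕ) :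
    shiftMap K E c i j (dd K E c (one K E c S v)) = dd K E c (shiftMap K E c i j (one K E c S v)) := by
  classical
  set a : Fin n → K := fun k => (-1 : K) ^ epsX (S.erase k) k
  set τ := tau K c j (v j)
  have hterm : ∀ k ∈ S, k ≠ j → shiftMap K E c i j (one K E c (S.erase k) (v + Finsupp.single k 1)) =
      tX K E c i j k (S.erase k) v + if j ∈ S ∧ i ∉ S.erase k then
        (τ * sig K i j (S.erase k)) • tX K E c i j k (sw i j (S.erase k)) v else 0 := by
    intro k hk hkj
    have ht : (v + Finsupp.single k 1 : Fin n →₀ ℕ) j = v j := by simp [hkj.symm]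
    rw [shiftMap_one hij, phi1, psi_add_ne _ hkj, psi_add_ne _ hkj, ht]
    simp only [τ]
    simp [hkj.symm]
  rw [shiftMap_one hij, phi1, map_add, dd_psi v, dd_one, map_sum]
  simp only [map_smul]
  by_cases hjS : j ∈ S
  swap
  · rw [if_neg (fun h => hjS h.1), map_zero, add_zero]
    refine Finset.sum_congr rfl fun k hk => ?_
    rw [hterm k hk (fun h => hjS (h ▸ hk)), if_neg (fun h => hjS h.1), add_zero]
  have hj : shiftMap K E c i j (one K E c (S.erase j) (v + Finsupp.single j 1)) =
      tX K E c i j j (S.erase j) v + τ • tX K E c i j i (S.erase j) v := by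
    rw [shiftMap_one hij, phi1, psi_add_eq v, if_neg (by simp), add_zero]
  rw [← Finset.sum_erase_add S _ hjS, ← Finset.sum_erase_add S _ hjS, hj, smul_add]
  by_cases hiS : i ∈ S
  · rw [if_neg (fun h => h.2 hiS), map_zero, add_zero]
    have e : ∀ k ∈ S.erase j, a k • shiftMap K E c i j (one K E c (S.erase k) (v + Finsupp.single k 1)) =
        a k • tX K E c i j k (S.erase k) v + if k = i then
          (a i * τ * sig K i j (S.erase i)) • tX K E c i j i (S.erase j) v else 0 := by
      intro k hk
      obtain ⟨hkj, hkS⟩ := Finset.mem_erase.1 hk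
      rw [hterm k hkS hkj, smul_add]
      congr 1
      by_cases hki : k = i
      · subst hki
        have : sw k j (S.erase k) = S.erase j := by
          rw [sw, Finset.erase_right_comm, Finset.insert_erase]
          exact Finset.mem_erase.2 ⟨hkj, hkS⟩
        simp [hjS, this, smul_smul, mul_assoc]
      · rw [if_neg hki, if_neg ?_, smul_zero]
        exact fun h => h.2 (Finset.mem_erase.2 ⟨Ne.symm hki, hiS⟩)
    rw [Finset.sum_congr rfl e, Finset.sum_add_distrib, Finset.sum_ite_eq',
      if_pos (Finset.mem_erase.2 ⟨hij.ne, hiS⟩)]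
    have hs : a i * τ * sig K i j (S.erase i) = -(a j * τ) := by
      have h1 : epsX (S.erase j) j = epsX (S.erase i) i +
          ((S.erase i).filter fun l => i < l ∧ l < j).card + 1 := by
        have h2 := eps_erase (k := j) hiS
        have h3 := eps_erase (k := j) hjS
        rw [if_pos hij] at h2
        rw [if_neg (lt_irrefl j), add_zero] at h3
        rw [← h3, h2, eps_split hij (Finset.notMem_erase i S)]
      simp only [a, sig, h1, pow_succ, pow_add]
      ring
    rw [hs, neg_smul, smul_smul]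
    abel
  · rw [if_pos ⟨hjS, hiS⟩, map_smul, dd_psi v]
    set S' := sw i j S
    have hiS' : i ∈ S' := Finset.mem_insert_self _ _
    have hsi : S'.erase i = S.erase j := Finset.erase_insert (fun h => hiS (Finset.mem_of_mem_erase h))
    rw [← Finset.sum_erase_add S' _ hiS', hsi, smul_add, Finset.smul_sum]
    have e : ∀ k ∈ S.erase j, a k • shiftMap K E c i j (one K E c (S.erase k) (v + Finsupp.single k 1)) =
        a k • tX K E c i j k (S.erase k) v +
          (τ * sig K i j S) • ((-1 : K) ^ epsX (S'.erase k) k) • tX K E c i j k (S'.erase k) v := by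
      intro k hk
      obtain ⟨hkj, hkS⟩ := Finset.mem_erase.1 hk
      have hki : k ≠ i := fun h => hiS (h ▸ hkS)
      have hsw : sw i j (S.erase k) = S'.erase k := by
        simp only [S', sw]
        rw [Finset.erase_insert_of_ne hki.symm, Finset.erase_right_comm]
      rw [hterm k hkS hkj, smul_add, if_pos ⟨hjS, fun h => hiS (Finset.mem_of_mem_erase h)⟩, hsw,
        smul_smul, smul_smul]
      congr 2
      have h1 : epsX (S'.erase k) k + (if j < k then 1 else 0) =
          epsX (S.erase k) k + if i < k then 1 else 0 := by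
        rw [← hsw, sw, eps_insert (fun h => hiS (Finset.mem_of_mem_erase
          (Finset.mem_of_mem_erase h))), eps_erase (T := S.erase k) (k := k)
          (Finset.mem_erase.2 ⟨hkj.symm, hjS⟩)]
        omega
      have h2 := btw_erase (i := i) (j := j) hkS
      have h3 : (epsX (S.erase k) k + ((S.erase k).filter fun l => i < l ∧ l < j).card) % 2 =
          ((S.filter fun l => i < l ∧ l < j).card + epsX (S'.erase k) k) % 2 := by
        rcases lt_trichotomy k i with h | h | h
        · simp [not_lt.2 h.le, not_lt.2 (h.trans hij).le] at h1 h2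
          omega
        · exact absurd h hki
        · rcases lt_or_gt_of_ne hkj with h' | h'
          · simp [h, h', not_lt.2 h'.le] at h1 h2
            omega
          · simp [h, h', not_lt.2 h'.le] at h1 h2
            omega
      calc a k * (τ * sig K i j (S.erase k))
          = τ * (-1 : K) ^ (epsX (S.erase k) k +
              ((S.erase k).filter fun l => i < l ∧ l < j).card) := by
            simp only [a, sig, pow_add]; ring
        _ = τ * (-1 : K) ^ ((S.filter fun l => i < l ∧ l < j).card + epsX (S'.erase k) k) := by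
            rw [neg_one_pow_eq_pow_mod_two, h3, ← neg_one_pow_eq_pow_mod_two]
        _ = τ * sig K i j S * (-1 : K) ^ epsX (S'.erase k) k := by
            simp only [sig, pow_add]; ring
    rw [Finset.sum_congr rfl e, Finset.sum_add_distrib]
    have hs : τ * sig K i j S * (-1 : K) ^ epsX (S.erase j) i = a j * τ := by
      have h1 := eps_split hij (T := S.erase j) (fun h => hiS (Finset.mem_of_mem_erase h))
      have h2 : ((S.erase j).filter fun l => i < l ∧ l < j).card =
          (S.filter fun l => i < l ∧ l < j).card := by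
        rw [btw_erase (i := i) (j := j) hjS]
        simp
      simp only [a, sig, h1, h2, pow_add]
      ring
    rw [smul_smul (τ * sig K i j S), hs, smul_smul (a j) τ]
    abel

/-- The shape of the image of a power of `x j`. -/
theorem op_shape (T : Finset (Fin n)) (r : Fin n →₀ ℕ) : ∀ b : ℕ,
    op K E c i j b (one K E c T r) - one K E c T (r + Finsupp.single j b) -
        tsum K c j b • one K E c T (r + Finsupp.single j (b - 1) + Finsupp.single i 1) ∈
      Submodule.span K {x | ∃ m l, m + l = b ∧ m + 2 ≤ b ∧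
        one K E c T (r + Finsupp.single j m + Finsupp.single i l) = x}
  | 0 => by simp [op, tsum]
  | b + 1 => by
    set S := Submodule.span K {x | ∃ m l, m + l = b ∧ m + 2 ≤ b ∧
      one K E c T (r + Finsupp.single j m + Finsupp.single i l) = x}
    set S' := Submodule.span K {x | ∃ m l, m + l = b + 1 ∧ m + 2 ≤ b + 1 ∧
      one K E c T (r + Finsupp.single j m + Finsupp.single i l) = x}
    set A := mulV K E c j + tau K c j b • mulV K E c i
    have hS : ∀ x ∈ S, A x ∈ S' := by
      intro x hx
      induction hx using Submodule.span_induction with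
      | mem x hx =>
        obtain ⟨m, l, hml, hm, rfl⟩ := hx
        simp only [A, LinearMap.add_apply, LinearMap.smul_apply, mulV_one]
        refine add_mem (Submodule.subset_span ⟨m + 1, l, by omega, by omega, ?_⟩)
          (Submodule.smul_mem _ _ (Submodule.subset_span ⟨m, l + 1, by omega, by omega, ?_⟩))
        · rw [Finsupp.single_add]; congr 1; abel
        · rw [Finsupp.single_add]; congr 1; abel
      | zero => simp
      | add x y _ _ hx hy => rw [map_add]; exact add_mem hx hy
      | smul s x _ hx => rw [map_smul]; exact Submodule.smul_mem _ s hx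
    have h := hS _ (op_shape T r b)
    simp only [A, LinearMap.add_apply, LinearMap.smul_apply, map_sub, map_smul, mulV_one] at h
    rcases Nat.eq_zero_or_pos b with rfl | hb
    · simp [op, tsum, mulV_one]
    obtain ⟨b', rfl⟩ : ∃ b', b = b' + 1 := ⟨b - 1, by omega⟩
    have hx : one K E c T (r + Finsupp.single j b' + Finsupp.single i 1 + Finsupp.single i 1) ∈ S' :=
      Submodule.subset_span ⟨b', 2, by omega, by omega, by
        rw [add_assoc (r + Finsupp.single j b'), ← Finsupp.single_add]⟩
    have h' := add_mem h (Submodule.smul_mem _ (tau K c j (b' + 1) * tsum K c j (b' + 1)) hx)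
    have e1 : r + Finsupp.single j b' + Finsupp.single i 1 + Finsupp.single j 1 =
        r + Finsupp.single j (b' + 1) + Finsupp.single i 1 := by
      rw [Finsupp.single_add]; abel
    have e2 : r + Finsupp.single j (b' + 1) + Finsupp.single j 1 =
        r + Finsupp.single j (b' + 1 + 1) := by rw [add_assoc, ← Finsupp.single_add]
    have e3 : tsum K c j (b' + 1 + 1) = tsum K c j (b' + 1) + tau K c j (b' + 1) :=
      Finset.sum_range_succ _ _
    simp only [add_tsub_cancel_right, e1, e2] at h' ⊢
    convert h' using 1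
    simp only [op, LinearMap.comp_apply, LinearMap.add_apply, LinearMap.smul_apply, e3]
    module

/-- The exponents of the lower terms. -/
def Tail (K : Type*) [Field K] (E c : ℕ) (j : Fin n) (T : Finset (Fin n)) (a : Fin n →₀ ℕ) :
    Set (CM K n) :=
  {x | ∃ b : Fin n →₀ ℕ, (b.degree = a.degree ∧ toLex a < toLex b ∧ b j + 2 ≤ a j) ∧
    one K E c T b = x}

theorem psi_shape (hij : i < j) (T : Finset (Fin n)) (a : Fin n →₀ ℕ) :
    psi K E c i j T a - one K E c T a - tsum K c j (a j) • one K E c T (shx i j a) ∈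
      Submodule.span K (Tail K E c j T a) := by
  set r := a.erase j with hr
  have ea : r + Finsupp.single j (a j) = a := Finsupp.erase_add_single j a
  have hj : r j = 0 := Finsupp.erase_same
  have es : tsum K c j (a j) • one K E c T (r + Finsupp.single j (a j - 1) + Finsupp.single i 1) =
      tsum K c j (a j) • one K E c T (shx i j a) := by
    rcases Nat.eq_zero_or_pos (a j) with h | h
    · simp [h, tsum]
    · congr 2
      ext l
      by_cases hl : l = j
      · subst hl; simp [hj, shx, hij.ne']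
      · simp [r, shx, hl]
  have h := op_shape (K := K) (E := E) (c := c) (i := i) (j := j) T r (a j)
  rw [es, ea] at h
  refine Submodule.span_mono ?_ h
  rintro x ⟨m, l, hml, hm, rfl⟩
  refine ⟨_, ⟨?_, ?_, ?_⟩, rfl⟩
  · have h1 := congrArg Finsupp.degree ea
    simp only [map_add, Finsupp.degree_single] at h1 ⊢
    omega
  · refine Finsupp.Lex.lt_iff.2 ⟨i, fun t ht => ?_, ?_⟩
    · simp [r, ht.ne, (ht.trans hij).ne]
    · show a i < (r + Finsupp.single j m + Finsupp.single i l : Fin n →₀ ℕ) i
      simp [r, hij.ne]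
      omega
  · simp [hj, hij.ne']
    omega

/-- Coordinates outside a set of exponents vanish. -/
theorem coord_span {T : Finset (Fin n)} {Q : (Fin n →₀ ℕ) → Prop} {G : Set (CM K n)}
    (hG : ∀ x ∈ G, ∃ b, Q b ∧ one K E c T b = x) {w : CM K n} (hw : w ∈ Submodule.span K G)
    (T' : Finset (Fin n)) {y : Fin n →₀ ℕ} (hy : ¬ Q y ∨ pwP E c y) : w (T', y) = 0 := by
  induction hw using Submodule.span_induction with
  | mem x hx =>
    obtain ⟨b, hb, rfl⟩ := hG x hx
    by_cases hP : pwP E c b
    · simp [one_pw T hP]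
    · rw [one_of_not T hP]
      refine Finsupp.single_eq_of_ne fun e => ?_
      obtain ⟨-, rfl⟩ := Prod.mk.inj e
      exact hy.elim (fun h => h hb) hP
  | zero => rfl
  | add x z _ _ hx hz => simp [hx, hz]
  | smul s x _ hx => simp [hx]

theorem one_apply_ne (T T' : Finset (Fin n)) {a y : Fin n →₀ ℕ} (h : y ≠ a ∨ pwP E c y) :
    one K E c T a (T', y) = 0 :=
  coord_span (Q := fun b => b = a) (G := {one K E c T a})
    (fun _ hx => ⟨a, rfl, (Set.mem_singleton_iff.1 hx).symm⟩) (Submodule.subset_span rfl) T' h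

theorem src_mem [Fact E.Prime] [CharP K E] (hij : i < j) {p e : ℕ} (A : Finset (Fin n →₀ ℕ)) :
    ∀ (m : ℕ) (S : Finset (Fin n)) (v : Fin n →₀ ℕ), v j = m → S.card = p + 1 → v.degree + 1 = e →
      dd K E c (one K E c S v) ∈
        (Submodule.span K (genF K E c p e A)).map (shiftMap K E c i j) := by
  classical
  intro m
  induction m using Nat.strong_induction_on with
  | _ m ih =>
    intro S v hm hS hv
    set M := (Submodule.span K (genF K E c p e A)).map (shiftMap K E c i j)
    have hz : dd K E c (psi K E c i j S v) ∈ M := by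
      rw [psi_eq hij, map_sub (shiftMap K E c i j), map_sub]
      refine Submodule.sub_mem _ ?_ ?_
      · rw [← shiftMap_dd hij]
        exact Submodule.mem_map_of_mem (Submodule.subset_span (Or.inr ⟨S, v, hS, hv, rfl⟩))
      · split_ifs with h
        · rw [map_smul, map_smul, ← shiftMap_dd hij]
          refine Submodule.smul_mem _ _ (Submodule.mem_map_of_mem
            (Submodule.subset_span (Or.inr ⟨_, v, ?_, hv, rfl⟩)))
          rw [sw, Finset.card_insert_of_notMem (fun h' => h.2 (Finset.mem_of_mem_erase h')),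
            Finset.card_erase_of_mem h.1, hS]
          omega
        · simp
    have ht : ∀ w ∈ Submodule.span K (Tail K E c j S v), dd K E c w ∈ M := by
      intro w hw
      induction hw using Submodule.span_induction with
      | mem x hx =>
        obtain ⟨b, ⟨hbd, -, hbj⟩, rfl⟩ := hx
        exact ih (b j) (by omega) S b rfl hS (by omega)
      | zero => simp
      | add x y _ _ hx hy => rw [map_add]; exact add_mem hx hy
      | smul s x _ hx => rw [map_smul]; exact Submodule.smul_mem _ s hx
    have h1 := ht _ (psi_shape hij S v)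
    rw [map_sub, map_sub, map_smul] at h1
    have h2 : tsum K c j (v j) • dd K E c (one K E c S (shx i j v)) ∈ M := by
      rcases Nat.eq_zero_or_pos (v j) with h0 | h0
      · simp [h0, tsum]
      · exact Submodule.smul_mem _ _ (ih (shx i j v j) (by simp [shx, hij.ne']; omega) S _ rfl hS
          (by rw [shx_degree h0]; exact hv))
    have h3 := Submodule.sub_mem _ (Submodule.sub_mem _ hz h1) h2
    convert h3 using 1
    abel

/-- The number of exponents of a set above each exponent of the degree. -/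
def above (e : ℕ) (A : Finset (Fin n →₀ ℕ)) : ℕ := by
  classical
  exact ∑ x ∈ Vale.Agent.P200.degSet n e, (A.filter fun a => toLex x ≤ toLex a).card

/-- Coordinates of the image of a monomial. -/
def pvec (K : Type*) [Field K] (E c e : ℕ) (i j : Fin n) (a : Fin n →₀ ℕ) : Ex n e → K :=
  fun y => psi K E c i j ∅ a (∅, y.1)

theorem pvec_split (hij : i < j) {e : ℕ} (a : Fin n →₀ ℕ) :
    ∃ w ∈ Submodule.span K (Tail K E c j ∅ a), ∀ y : Ex n e, pvec K E c e i j a y =
      w (∅, y.1) + one K E c ∅ a (∅, y.1) + tsum K c j (a j) * one K E c ∅ (shx i j a) (∅, y.1) := by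
  refine ⟨_, psi_shape hij ∅ a, fun y => ?_⟩
  simp only [pvec, Finsupp.sub_apply, Finsupp.smul_apply, smul_eq_mul]
  ring

theorem pvec_diag (hij : i < j) {e : ℕ} {a : Fin n →₀ ℕ} (hd : a.degree = e) (hP : ¬ pwP E c a) :
    pvec K E c e i j a ⟨a, hd⟩ = 1 := by
  obtain ⟨w, hw, h⟩ := pvec_split (K := K) (E := E) (c := c) hij (e := e) a
  rw [h, coord_span (Q := fun b => b.degree = a.degree ∧ toLex a < toLex b ∧ b j + 2 ≤ a j)
    (fun x hx => hx) hw ∅ (Or.inl fun h => lt_irrefl _ h.2.1)]
  rcases Nat.eq_zero_or_pos (a j) with h0 | h0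
  · simp [h0, tsum, one_of_not ∅ hP]
  · rw [one_apply_ne ∅ ∅ (a := shx i j a) (Or.inl fun e => (lt_shx hij h0).ne (congrArg toLex e))]
    simp [one_of_not ∅ hP]

theorem pvec_shx (hij : i < j) {e : ℕ} {a : Fin n →₀ ℕ} (h0 : 0 < a j)
    (hd : (shx i j a).degree = e) (hP : ¬ pwP E c (shx i j a)) :
    pvec K E c e i j a ⟨shx i j a, hd⟩ = tsum K c j (a j) := by
  obtain ⟨w, hw, h⟩ := pvec_split (K := K) (E := E) (c := c) hij (e := e) a
  rw [h, coord_span (Q := fun b => b.degree = a.degree ∧ toLex a < toLex b ∧ b j + 2 ≤ a j)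
    (fun x hx => hx) hw ∅ (Or.inl fun h => by
      have : shx i j a j = a j - 1 := by simp [shx, hij.ne']
      have h2 : shx i j a j + 2 ≤ a j := h.2.2
      omega),
    one_apply_ne ∅ ∅ (a := a) (Or.inl fun e => (lt_shx hij h0).ne (congrArg toLex e).symm)]
  simp [one_of_not ∅ hP]

/-- Lex greater exponents come first. -/
def rwt (e : ℕ) (y : Ex n e) : (Lex (Fin n →₀ ℕ))ᵒᵈ := OrderDual.toDual (toLex y.1)

theorem rwt_injective (e : ℕ) : Function.Injective (rwt (n := n) e) := fun _ _ h =>
  Subtype.ext (toLex.injective (OrderDual.toDual.injective h))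

/-- The span of shifted monomials. -/
def shSpan (K : Type*) [Field K] (E c e : ℕ) (i j : Fin n) (B : Finset (Fin n →₀ ℕ)) :
    Submodule K (Ex n e → K) :=
  Submodule.span K (Set.range fun b : {b // b ∈ B} => pvec K E c e i j b.1)

/-- The shifted family. -/
def shFam (K : Type*) [Field K] (E c e : ℕ) (i j : Fin n) (A : Finset (Fin n →₀ ℕ)) :
    Finset (Fin n →₀ ℕ) := by
  classical
  exact ((Finset.univ : Finset (Ex n e)).filter
    fun y => Piv (rwt e) (shSpan K E c e i j A) y).image Subtype.val

theorem mem_shFam {e : ℕ} {A : Finset (Fin n →₀ ℕ)} {x : Fin n →₀ ℕ} :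
    x ∈ shFam K E c e i j A ↔ ∃ h : x.degree = e, Piv (rwt e) (shSpan K E c e i j A) ⟨x, h⟩ := by
  simp [shFam]

theorem toLex_le_of_pvec (hij : i < j) {e : ℕ} {a : Fin n →₀ ℕ} {y : Ex n e}
    (hy : pvec K E c e i j a y ≠ 0) : toLex a ≤ toLex y.1 := by
  by_contra hlt
  apply hy
  obtain ⟨w, hw, h⟩ := pvec_split (K := K) (E := E) (c := c) hij (e := e) a
  push Not at hlt
  rw [h, coord_span (Q := fun b => b.degree = a.degree ∧ toLex a < toLex b ∧ b j + 2 ≤ a j)
    (fun x hx => hx) hw ∅ (Or.inl fun h => lt_asymm hlt h.2.1),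
    one_apply_ne ∅ ∅ (a := a) (Or.inl fun h => hlt.ne (congrArg toLex h)), zero_add, zero_add]
  rcases Nat.eq_zero_or_pos (a j) with h0 | h0
  · simp [h0, tsum]
  · rw [one_apply_ne ∅ ∅ (Or.inl fun h => (hlt.trans (lt_shx hij h0)).ne (congrArg toLex h)),
      mul_zero]

theorem pvec_pw (hij : i < j) {e : ℕ} (a : Fin n →₀ ℕ) {y : Ex n e} (hP : pwP E c y.1) :
    pvec K E c e i j a y = 0 := by
  obtain ⟨w, hw, h⟩ := pvec_split (K := K) (E := E) (c := c) hij (e := e) a
  rw [h, coord_span (Q := fun b => b.degree = a.degree ∧ toLex a < toLex b ∧ b j + 2 ≤ a j)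
    (fun x hx => hx) hw ∅ (Or.inr hP), one_apply_ne ∅ ∅ (a := a) (Or.inr hP),
    one_apply_ne ∅ ∅ (a := shx i j a) (Or.inr hP)]
  simp

theorem notP_of_shSpan (hij : i < j) {e : ℕ} {A : Finset (Fin n →₀ ℕ)} {u : Ex n e → K}
    (hu : u ∈ shSpan K E c e i j A) {y : Ex n e} (hy : u y ≠ 0) : ¬ pwP E c y.1 := by
  intro hP
  apply hy
  clear hy
  induction hu using Submodule.span_induction with
  | mem v hv =>
    obtain ⟨b, rfl⟩ := hv
    exact pvec_pw hij b.1 hP
  | zero => rfl
  | add x z _ _ hx hz => simp [hx, hz]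
  | smul r x _ hx => simp [hx]

theorem finrank_shSpan (hij : i < j) {e : ℕ} (B : Finset (Fin n →₀ ℕ))
    (hB : ∀ a ∈ B, a.degree = e ∧ ¬ pwP E c a) :
    Module.finrank K (shSpan K E c e i j B) = B.card := by
  classical
  rw [shSpan, finrank_span_eq_card (b := fun b : {b // b ∈ B} => pvec K E c e i j b.1),
    Fintype.card_coe]
  rw [Fintype.linearIndependent_iff]
  intro g hg
  by_contra hne
  push Not at hne
  obtain ⟨b0, hb0, hmin⟩ := Finset.exists_min_image
    (Finset.univ.filter fun b : {b // b ∈ B} => g b ≠ 0) (fun b => toLex b.1)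
    (by obtain ⟨b, hb⟩ := hne; exact ⟨b, by simpa using hb⟩)
  simp only [Finset.mem_filter, Finset.mem_univ, true_and] at hb0 hmin
  obtain ⟨hd, hP⟩ := hB b0.1 b0.2
  have h := congrFun hg ⟨b0.1, hd⟩
  simp only [Finset.sum_apply, Pi.smul_apply, smul_eq_mul, Pi.zero_apply] at h
  rw [Finset.sum_eq_single b0] at h
  · refine hb0 ((mul_eq_zero.1 h).resolve_right ?_)
    rw [pvec_diag hij hd hP]
    exact one_ne_zero
  · intro b _ hbne
    by_cases hgb : g b = 0
    · rw [hgb, zero_mul]
    · by_contra hne'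
      exact hbne (Subtype.ext (toLex.injective
        (le_antisymm (toLex_le_of_pvec hij (right_ne_zero_of_mul hne')) (hmin b hgb))))
  · simp

theorem shFam_props (hij : i < j) {e : ℕ} {A : Finset (Fin n →₀ ℕ)}
    (hA : ∀ a ∈ A, a.degree = e ∧ ¬ pwP E c a) :
    (∀ a ∈ shFam K E c e i j A, a.degree = e ∧ ¬ pwP E c a) ∧
      (shFam K E c e i j A).card = A.card := by
  classical
  refine ⟨fun a ha => ?_, ?_⟩
  · obtain ⟨h, u, hu, hy, -⟩ := mem_shFam.1 ha
    exact ⟨h, notP_of_shSpan hij hu hy⟩
  · rw [shFam, Finset.card_image_of_injective _ Subtype.val_injective,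
      ← finrank_shSpan (K := K) hij A hA, ← ncard_piv (rwt_injective e), ← Set.ncard_coe_finset,
      Finset.coe_filter]
    simp

/-- Spreading coordinates over the chains supported on a set. -/
def spread (K : Type*) [Field K] (E c e : ℕ) (T : Finset (Fin n)) : (Ex n e → K) →ₗ[K] CM K n :=
  ∑ y : Ex n e, (LinearMap.proj (R := K) (φ := fun _ : Ex n e => K) y).smulRight (one K E c T y.1)

theorem spread_apply (e : ℕ) (T : Finset (Fin n)) (u : Ex n e → K) :
    spread K E c e T u = ∑ y : Ex n e, u y • one K E c T y.1 := by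
  simp [spread]

theorem spread_one {e : ℕ} (T : Finset (Fin n)) {x : Fin n →₀ ℕ} (hx : x.degree = e) :
    spread K E c e T (fun y => one K E c ∅ x (∅, y.1)) = one K E c T x := by
  classical
  rw [spread_apply, Finset.sum_eq_single ⟨x, hx⟩]
  · by_cases hP : pwP E c x
    · simp [one_pw _ hP]
    · simp [one_of_not _ hP]
  · intro y _ hy
    rw [one_apply_ne ∅ ∅ (Or.inl fun h => hy (Subtype.ext h)), zero_smul]
  · simp

/-- Relabelling the sets of chains. -/
def relab (K : Type*) [Field K] (T : Finset (Fin n)) : CM K n →ₗ[K] CM K n :=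
  Finsupp.lmapDomain K K fun x => (T, x.2)

theorem relab_one (T T' : Finset (Fin n)) (a : Fin n →₀ ℕ) :
    relab K T (one K E c T' a) = one K E c T a := by
  by_cases hP : pwP E c a
  · simp [one_pw _ hP]
  · simp [one_of_not _ hP, relab]

theorem relab_op (T : Finset (Fin n)) : ∀ (b : ℕ) (x : CM K n),
    relab K T (op K E c i j b x) = op K E c i j b (relab K T x)
  | 0, x => rfl
  | b + 1, x => by
    have hm : ∀ k z, relab K T (mulV K E c k z) = mulV K E c k (relab K T z) := by
      intro k z
      refine LinearMap.congr_fun (f := relab K T ∘ₗ mulV K E c k)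
        (g := mulV K E c k ∘ₗ relab K T) (Finsupp.lhom_ext fun y r => ?_) z
      simp only [LinearMap.comp_apply, mulV_single, map_smul, relab_one]
      simp [relab, mulV_single]
    simp only [op, LinearMap.comp_apply, LinearMap.add_apply, LinearMap.smul_apply, map_add,
      map_smul, hm, relab_op T b x]

theorem spread_pvec (hij : i < j) {e : ℕ} (T : Finset (Fin n)) {a : Fin n →₀ ℕ}
    (ha : a.degree = e) : spread K E c e T (pvec K E c e i j a) = psi K E c i j T a := by
  classical
  let crd : CM K n →ₗ[K] (Ex n e → K) := LinearMap.pi fun y => Finsupp.lapply (∅, y.1)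
  have hkey : ∀ z ∈ Submodule.span K
      {x | ∃ b : Fin n →₀ ℕ, b.degree = e ∧ one K E c ∅ b = x},
      spread K E c e T (crd z) = relab K T z := by
    intro z hz
    induction hz using Submodule.span_induction with
    | mem x hx =>
      obtain ⟨b, hb, rfl⟩ := hx
      rw [relab_one]
      exact spread_one T hb
    | zero => simp
    | add x y _ _ hx hy => simp only [map_add, hx, hy]
    | smul r x _ hx => simp only [map_smul, hx]
  have h := hkey (psi K E c i j ∅ a) ?_
  · show spread K E c e T (crd (psi K E c i j ∅ a)) = _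
    rw [h, psi, psi, relab_op, relab_one]
  · set P := Submodule.span K {x | ∃ b : Fin n →₀ ℕ, b.degree = e ∧ one K E c ∅ b = x}
    have h1 : Submodule.span K (Tail K E c j ∅ a) ≤ P :=
      Submodule.span_mono fun x ⟨b, hb, hx⟩ => ⟨b, hb.1.trans ha, hx⟩
    have h2 : tsum K c j (a j) • one K E c ∅ (shx i j a) ∈ P := by
      rcases Nat.eq_zero_or_pos (a j) with h0 | h0
      · simp [h0, tsum]
      · exact Submodule.smul_mem _ _ (Submodule.subset_span ⟨_, (shx_degree h0).trans ha, rfl⟩)
    have h3 := add_mem (add_mem (h1 (psi_shape hij ∅ a)) h2)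
      (Submodule.subset_span ⟨a, ha, rfl⟩ : one K E c ∅ a ∈ P)
    simpa using h3

theorem spread_mem [Fact E.Prime] [CharP K E] (hij : i < j) {p e : ℕ} {A : Finset (Fin n →₀ ℕ)} (hA : ∀ a ∈ A, a.degree = e ∧ ¬ pwP E c a)
    {T : Finset (Fin n)} (hT : T.card = p) {u : Ex n e → K} (hu : u ∈ shSpan K E c e i j A) :
    spread K E c e T u ∈ (Submodule.span K (genF K E c p e A)).map (shiftMap K E c i j) := by
  classical
  induction hu using Submodule.span_induction with
  | mem v hv =>
    obtain ⟨⟨a, ha⟩, rfl⟩ := hv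
    have e1 := spread_pvec (K := K) (E := E) (c := c) hij T (hA a ha).1
    show spread K E c e T (pvec K E c e i j a) ∈ _
    rw [e1, psi_eq hij]
    refine Submodule.mem_map_of_mem (Submodule.sub_mem _
      (Submodule.subset_span (Or.inl ⟨T, a, hT, ha, rfl⟩)) ?_)
    split_ifs with h
    · refine Submodule.smul_mem _ _ (Submodule.subset_span (Or.inl ⟨sw i j T, a, ?_, ha, rfl⟩))
      rw [sw, Finset.card_insert_of_notMem (fun h' => h.2 (Finset.mem_of_mem_erase h')),
        Finset.card_erase_of_mem h.1, hT]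
      have := Finset.card_pos.2 ⟨j, h.1⟩
      omega
    · exact zero_mem _
  | zero => simp
  | add x y _ _ hx hy => rw [map_add]; exact add_mem hx hy
  | smul r x _ hx => rw [map_smul]; exact Submodule.smul_mem _ r hx

/-- The weight of a row. -/
def cwt (x : Finset (Fin n) × (Fin n →₀ ℕ)) : (Lex (Fin n →₀ ℕ))ᵒᵈ :=
  OrderDual.toDual (toLex (x.2 + chi x.1))

theorem dd_one_homog (S : Finset (Fin n)) (v : Fin n →₀ ℕ)
    (y : Finset (Fin n) × (Fin n →₀ ℕ)) (hy : cwt y ≠ cwt (S, v)) :
    dd K E c (one K E c S v) y = 0 := by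
  rw [dd_one, Finsupp.finsetSum_apply]
  refine Finset.sum_eq_zero fun l hl => ?_
  by_cases hP : pwP E c (v + Finsupp.single l 1)
  · rw [one_pw _ hP, smul_zero, Finsupp.zero_apply]
  · rw [one_of_not _ hP, Finsupp.smul_apply, Finsupp.single_eq_of_ne ?_, smul_zero]
    intro h
    apply hy
    subst h
    simp only [cwt, add_assoc, chi_erase hl]

theorem lift_unit [Fact E.Prime] [CharP K E] (hij : i < j) {p e : ℕ} {A : Finset (Fin n →₀ ℕ)}
    (hA : ∀ a ∈ A, a.degree = e ∧ ¬ pwP E c a) {T : Finset (Fin n)} (hT : T.card = p)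
    {a : Fin n →₀ ℕ} (ha : a ∈ shFam K E c e i j A) :
    ∃ v ∈ (Submodule.span K (genF K E c p e A)).map (shiftMap K E c i j),
      ∀ y, cwt y ≤ cwt (T, a) → v y = (Finsupp.single (T, a) 1 : CM K n) y := by
  classical
  obtain ⟨hd, u, hu, hua, hlow⟩ := mem_shFam.1 ha
  have haP := notP_of_shSpan hij hu hua
  refine ⟨spread K E c e T ((u ⟨a, hd⟩)⁻¹ • u),
    spread_mem hij hA hT (Submodule.smul_mem _ _ hu), fun y hy => ?_⟩
  rw [spread_apply, Finsupp.finsetSum_apply, Finset.sum_eq_single ⟨a, hd⟩]
  · rw [Pi.smul_apply, smul_eq_mul, inv_mul_cancel₀ hua, one_smul, one_of_not T haP]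
  · intro z _ hz
    by_cases huz : u z = 0
    · simp [huz]
    rw [one_of_not T (notP_of_shSpan hij hu huz), Finsupp.smul_apply, Finsupp.single_eq_of_ne ?_,
      smul_zero]
    intro h
    subst h
    have hlt : toLex z.1 < toLex a := by
      refine lt_of_le_of_ne ?_ (fun h => hz (Subtype.ext (toLex.injective h)))
      by_contra hgt
      push Not at hgt
      exact huz (hlow z (OrderDual.toDual_lt_toDual.2 hgt))
    have h2 : toLex (a + chi T) ≤ toLex (z.1 + chi T) := OrderDual.toDual_le_toDual.1 hy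
    rw [toLex_add, toLex_add] at h2
    exact absurd h2 (not_le.2 (add_lt_add_left hlt _))
  · simp

theorem bR_shFam_le [Fact E.Prime] [CharP K E] (hij : i < j) (p e : ℕ) {A : Finset (Fin n →₀ ℕ)}
    (hA : ∀ a ∈ A, a.degree = e ∧ ¬ pwP E c a) :
    bR K E c p e (shFam K E c e i j A) ≤ bR K E c p e A := by
  classical
  have : Module.Finite K (Submodule.span K (genF K E c p e A)) :=
    Module.Finite.span_of_finite K (genF_finite c p e A)
  set M := (Submodule.span K (genF K E c p e A)).map (shiftMap K E c i j)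
  have hM : Module.finrank K M ≤ bR K E c p e A := Submodule.finrank_map_le _ _
  refine le_trans ?_ hM
  have hfin := genF_finite (K := K) (n := n) (E := E) c p e (shFam K E c e i j A)
  have : Finite (genF K E c p e (shFam K E c e i j A)) := hfin.to_subtype
  have : Module.Finite K M := Module.Finite.map _ _
  have hex : ∀ x : genF K E c p e (shFam K E c e i j A), ∃ (g : (Lex (Fin n →₀ ℕ))ᵒᵈ), ∃ v ∈ M,
      (∀ y, cwt y ≠ g → (x : CM K n) y = 0) ∧ ∀ y, cwt y ≤ g → v y = (x : CM K n) y := by
    rintro ⟨x, ⟨T, a, hT, ha, rfl⟩ | ⟨S, a, hS, ha, rfl⟩⟩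
    · obtain ⟨v, hv, hv'⟩ := lift_unit (p := p) hij hA hT ha
      have haP := ((shFam_props hij hA).1 a ha).2
      refine ⟨cwt (T, a), v, hv, fun y hy => ?_, fun y hy => ?_⟩
      · show one K E c T a y = 0
        rw [one_of_not T haP]
        exact Finsupp.single_eq_of_ne fun h => hy (congrArg cwt h)
      · show v y = one K E c T a y
        rw [one_of_not T haP]
        exact hv' y hy
    · exact ⟨cwt (S, a), dd K E c (one K E c S a), src_mem hij A (a j) S a rfl hS ha,
        dd_one_homog S a, fun y _ => rfl⟩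
  choose g v hv hw hlead using hex
  have h := lead_le (K := K) (ι := Finset (Fin n) × (Fin n →₀ ℕ)) cwt g
    (fun x => (x : CM K n)) v hw hlead M
  refine le_trans (le_of_eq ?_) (h hv)
  rw [bR, Subtype.range_coe_subtype]
  rfl

theorem card_filter_le_split (B : Finset (Fin n →₀ ℕ)) (x : Fin n →₀ ℕ) :
    (B.filter fun a => toLex x ≤ toLex a).card =
      (B.filter fun a => toLex x < toLex a).card + if x ∈ B then 1 else 0 := by
  classical
  have e2 : (B.filter fun a => a = x).card = if x ∈ B then 1 else 0 := by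
    rw [Finset.filter_eq']
    split_ifs <;> simp
  rw [← e2, ← Finset.card_union_of_disjoint]
  · congr 1
    ext a
    have : toLex x ≤ toLex a ↔ toLex x < toLex a ∨ a = x := by
      rw [le_iff_lt_or_eq]
      exact or_congr_right ⟨fun h => (toLex.injective h).symm, fun h => h ▸ rfl⟩
    simp only [Finset.mem_filter, Finset.mem_union, this, and_or_left]
  · refine Finset.disjoint_left.2 fun a h1 h2 => ?_
    simp only [Finset.mem_filter] at h1 h2
    obtain ⟨-, rfl⟩ := h2
    exact lt_irrefl _ h1.2

theorem card_gt_eq {e : ℕ} {A B : Finset (Fin n →₀ ℕ)} (hA : ∀ a ∈ A, a.degree = e)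
    (hB : ∀ a ∈ B, a.degree = e)
    (heq : ∀ x ∈ Vale.Agent.P200.degSet n e, (A.filter fun a => toLex x ≤ toLex a).card =
      (B.filter fun a => toLex x ≤ toLex a).card) (x : Fin n →₀ ℕ) :
    (A.filter fun a => toLex x < toLex a).card = (B.filter fun a => toLex x < toLex a).card := by
  classical
  rcases (((Vale.Agent.P200.degSet n e).filter fun a => toLex x < toLex a)).eq_empty_or_nonempty
    with h | h
  · have hall : ∀ C : Finset (Fin n →₀ ℕ), (∀ a ∈ C, a.degree = e) →
        (C.filter fun a => toLex x < toLex a).card = 0 := by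
      intro C hC
      rw [Finset.card_eq_zero, Finset.filter_eq_empty_iff]
      intro a ha hlt
      exact Finset.filter_eq_empty_iff.1 h (Vale.Agent.P200.mem_degSet.2 (hC a ha)) hlt
    rw [hall A hA, hall B hB]
  · obtain ⟨y, hy, hmin⟩ := Finset.exists_min_image _ (fun a => toLex a) h
    obtain ⟨hyd, hxy⟩ := Finset.mem_filter.1 hy
    have e1 : ∀ C : Finset (Fin n →₀ ℕ), (∀ a ∈ C, a.degree = e) →
        C.filter (fun a => toLex x < toLex a) = C.filter (fun a => toLex y ≤ toLex a) := by
      intro C hC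
      refine Finset.filter_congr fun a ha => ⟨fun h => hmin a (Finset.mem_filter.2
        ⟨Vale.Agent.P200.mem_degSet.2 (hC a ha), h⟩), fun h => hxy.trans_le h⟩
    rw [e1 A hA, e1 B hB]
    exact heq y hyd

theorem above_shFam_lt [Fact E.Prime] [CharP K E] (hij : i < j) {e : ℕ} {A : Finset (Fin n →₀ ℕ)}
    (hA : ∀ a ∈ A, a.degree = e ∧ ¬ pwP E c a) {a0 : Fin n →₀ ℕ} (ha0 : a0 ∈ A) (h0 : 0 < a0 j)
    (hP : ¬ pwP E c (shx i j a0)) (hnew : shx i j a0 ∉ A) :
    above e A < above e (shFam K E c e i j A) := by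
  classical
  have hge : ∀ x : Fin n →₀ ℕ, (A.filter fun a => toLex x ≤ toLex a).card ≤
      ((shFam K E c e i j A).filter fun a => toLex x ≤ toLex a).card := by
    intro x
    rw [← finrank_shSpan (K := K) hij _ (fun a ha => hA a (Finset.filter_subset _ A ha)),
      ← ncard_piv (rwt_injective e), ← Set.ncard_coe_finset]
    refine Set.ncard_le_ncard_of_injOn (fun y => y.1) ?_ Subtype.val_injective.injOn
      (Finset.finite_toSet _)
    rintro y ⟨u, hu, hy, hlow⟩
    simp only [Finset.coe_filter, Set.mem_ofPred_eq]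
    refine ⟨mem_shFam.2 ⟨y.2, u, Submodule.span_mono (by
      rintro _ ⟨⟨b, hb⟩, rfl⟩; exact ⟨⟨b, Finset.filter_subset _ A hb⟩, rfl⟩) hu, hy, hlow⟩, ?_⟩
    by_contra hlt
    apply hy
    clear hy hlow
    induction hu using Submodule.span_induction with
    | mem v hv =>
      obtain ⟨⟨b, hb⟩, rfl⟩ := hv
      by_contra h
      exact hlt ((Finset.mem_filter.1 hb).2.trans (toLex_le_of_pvec hij h))
    | zero => rfl
    | add x z _ _ hx hz => simp [hx, hz]
    | smul r x _ hx => simp [hx]
  have hd : (shx i j a0).degree = e := by rw [shx_degree h0]; exact (hA a0 ha0).1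
  by_contra hle
  push Not at hle
  have heq := (Finset.sum_eq_sum_iff_of_le (s := Vale.Agent.P200.degSet n e) fun x _ => hge x).1
    (le_antisymm (Finset.sum_le_sum fun x _ => hge x) hle)
  have hsame : ∀ x : Fin n →₀ ℕ, x ∈ shFam K E c e i j A → x ∈ A := by
    intro x hx
    have hxd := ((shFam_props hij hA).1 x hx).1
    by_contra hxA
    have h1 := heq _ (Vale.Agent.P200.mem_degSet.2 hxd)
    rw [card_filter_le_split, card_filter_le_split,
      card_gt_eq (fun a ha => (hA a ha).1) (fun a ha => ((shFam_props hij hA).1 a ha).1) heq,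
      if_neg hxA, if_pos hx] at h1
    omega
  set x0 := shx i j a0
  set W := shSpan K E c e i j A
  set Wg := shSpan K E c e i j (A.filter fun a => toLex x0 < toLex a)
  let Y := {y : Ex n e // y.1 ∈ A ∧ toLex x0 < toLex y.1}
  have hWg : Wg ≤ W := Submodule.span_mono (by
    rintro _ ⟨⟨b, hb⟩, rfl⟩; exact ⟨⟨b, Finset.filter_subset _ A hb⟩, rfl⟩)
  have hlow : ∀ u ∈ Wg, ∀ y : Ex n e, toLex y.1 ≤ toLex x0 → u y = 0 := by
    intro u hu y hy
    induction hu using Submodule.span_induction with
    | mem v hv =>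
      obtain ⟨⟨b, hb⟩, rfl⟩ := hv
      by_contra h
      exact absurd ((Finset.mem_filter.1 hb).2.trans_le (toLex_le_of_pvec hij h)) (not_lt.2 hy)
    | zero => rfl
    | add x z _ _ hx hz => simp [hx, hz]
    | smul r x _ hx => simp [hx]
  have hpiv : ∀ u ∈ W, ∀ y : Ex n e, u y ≠ 0 → (∀ z, rwt e z < rwt e y → u z = 0) → y.1 ∈ A :=
    fun u hu y h1 h2 => hsame _ (mem_shFam.2 ⟨y.2, u, hu, h1, h2⟩)
  let π : Wg →ₗ[K] (Y → K) := (LinearMap.funLeft K K fun y : Y => y.1).comp Wg.subtype
  have htop : ∀ u : Ex n e → K, ∀ y, u y ≠ 0 →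
      ∃ z, u z ≠ 0 ∧ toLex y.1 ≤ toLex z.1 ∧ ∀ w, rwt e w < rwt e z → u w = 0 := by
    intro u y hy
    obtain ⟨z, hz, hzmax⟩ := Finset.exists_max_image (Finset.univ.filter fun z => u z ≠ 0)
      (fun z : Ex n e => toLex z.1) ⟨y, by simpa using hy⟩
    simp only [Finset.mem_filter, Finset.mem_univ, true_and] at hz hzmax
    refine ⟨z, hz, hzmax y hy, fun w hw => ?_⟩
    by_contra hne
    exact absurd (OrderDual.toDual_lt_toDual.1 hw) (not_lt.2 (hzmax w hne))
  have hπ : Function.Injective π := by
    rw [← LinearMap.ker_eq_bot, LinearMap.ker_eq_bot']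
    intro u hu
    apply Subtype.ext
    funext y
    by_contra hy
    obtain ⟨z, hz, -, hzlow⟩ := htop u.1 y hy
    refine hz (congrFun hu ⟨z, hpiv u.1 (hWg u.2) z hz hzlow, ?_⟩)
    by_contra hnlt
    exact hz (hlow u.1 u.2 z (not_lt.1 hnlt))
  have hfr : Module.finrank K Wg = Module.finrank K (Y → K) := by
    rw [Module.finrank_fintype_fun_eq_card,
      finrank_shSpan hij _ (fun a ha => hA a (Finset.mem_filter.1 ha).1), Fintype.card_subtype]
    refine Finset.card_bij (fun a ha => ⟨a, (hA a (Finset.mem_filter.1 ha).1).1⟩)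
      (fun a ha => ?_) (fun a _ b _ h => congrArg Subtype.val h) (fun y hy => ⟨y.1, ?_, rfl⟩)
    · simp only [Finset.mem_filter, Finset.mem_univ, true_and] at ha ⊢
      exact ha
    · simp only [Finset.mem_filter, Finset.mem_univ, true_and] at hy ⊢
      exact hy
  obtain ⟨w, hw⟩ := (LinearMap.injective_iff_surjective_of_finrank_eq_finrank hfr).1 hπ
    fun y => pvec K E c e i j a0 y.1
  set u := pvec K E c e i j a0 - w.1
  have hu : u ∈ W := sub_mem (Submodule.subset_span ⟨⟨a0, ha0⟩, rfl⟩) (hWg w.2)
  have hux : u ⟨x0, hd⟩ ≠ 0 := by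
    simp only [u, Pi.sub_apply, hlow w.1 w.2 ⟨x0, hd⟩ le_rfl, sub_zero, x0]
    rw [pvec_shx hij h0 hd hP]
    exact tsum_ne_zero (E := E) h0 fun hjc => not_le.1 fun h => (hA a0 ha0).2 ⟨j, hjc, h⟩
  obtain ⟨z, hz, hzx, hzlow⟩ := htop u ⟨x0, hd⟩ hux
  have hzA := hpiv u hu z hz hzlow
  rcases hzx.lt_or_eq with h | h
  · exact hz (sub_eq_zero.2 (congrFun hw ⟨z, hzA, h⟩).symm)
  · exact hnew (by rw [show x0 = z.1 from toLex.injective h]; exact hzA)

theorem exists_shift [Fact E.Prime] [CharP K E] (p e : ℕ) (A : Finset (Fin n →₀ ℕ))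
    (hA : ∀ a ∈ A, a.degree = e ∧ ¬ pwP E c a) (hns : ¬ StabF E c A) :
    ∃ A' : Finset (Fin n →₀ ℕ), (∀ a ∈ A', a.degree = e ∧ ¬ pwP E c a) ∧ A'.card = A.card ∧
      bR K E c p e A' ≤ bR K E c p e A ∧ above e A < above e A' := by
  simp only [StabF, not_forall] at hns
  obtain ⟨a0, ha0, i, j, hij, b0, hb, hb0P, hb0⟩ := hns
  have ha0j : 0 < a0 j := by
    have := DFunLike.congr_fun hb j
    simp [hij.ne'] at this
    omega
  obtain rfl : b0 = shx i j a0 := add_right_cancel (hb.trans (shx_add ha0j).symm)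
  exact ⟨shFam K E c e i j A, (shFam_props hij hA).1, (shFam_props hij hA).2,
    bR_shFam_le hij p e hA, above_shFam_lt hij hA ha0 ha0j hb0P hb0⟩

/-- Some stable family of the same size has a boundary rank which is not larger. -/
theorem exists_stable [Fact E.Prime] [CharP K E] (p e : ℕ) (A : Finset (Fin n →₀ ℕ))
    (hA : ∀ a ∈ A, a.degree = e ∧ ¬ pwP E c a) :
    ∃ B : Finset (Fin n →₀ ℕ), (∀ a ∈ B, a.degree = e ∧ ¬ pwP E c a) ∧ B.card = A.card ∧
      bR K E c p e B ≤ bR K E c p e A ∧ StabF E c B := by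
  classical
  let cand := ((Vale.Agent.P200.degSet n e).filter fun a => ¬ pwP E c a).powerset.filter
    fun B => B.card = A.card ∧ bR K E c p e B ≤ bR K E c p e A
  obtain ⟨B, hB, hmax⟩ := cand.exists_max_image (above e) ⟨A, by
    simp only [cand, Finset.mem_filter, Finset.mem_powerset]
    exact ⟨fun a ha => Finset.mem_filter.2 ⟨Vale.Agent.P200.mem_degSet.2 (hA a ha).1, (hA a ha).2⟩,
      trivial, le_rfl⟩⟩
  simp only [cand, Finset.mem_filter, Finset.mem_powerset] at hB hmax
  obtain ⟨hBs, hBc, hBr⟩ := hB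
  have hBA : ∀ a ∈ B, a.degree = e ∧ ¬ pwP E c a := fun a ha => by
    have := Finset.mem_filter.1 (hBs ha)
    exact ⟨Vale.Agent.P200.mem_degSet.1 this.1, this.2⟩
  refine ⟨B, hBA, hBc, hBr, ?_⟩
  by_contra hns
  obtain ⟨B', h1, h2, h3, h4⟩ := exists_shift (K := K) p e B hBA hns
  exact absurd (hmax B' ⟨fun a ha => Finset.mem_filter.2
    ⟨Vale.Agent.P200.mem_degSet.2 (h1 a ha).1, (h1 a ha).2⟩, h2.trans hBc, h3.trans hBr⟩)
    (not_le.2 h4)

end Vale.Agent.P200e
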